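import Vale.Agent.P353.AN.H.Defs

/-! # P353, all `N`, block JN (helper714): the weak profile system `PW`

Interface between the analysis (blocks D, E, GL, TW, X) and the counting (S6, S7, Top). No Gram matrices, no symmetrisation:
the functionals `u ↦ ipr (Z i R a) u` act on gauge invariant functions only. -/

open MeasureTheory Filter Topology
open scoped ContDiff

namespace Vale.Agent.P353.Z

variable {d : ℕ} {F : Type*} [NormedAddCommGroup F] [InnerProductSpace ℂ F]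

/-- bounded sequences of gauge invariant test functions at scales `R n → ∞` (no energy bound) -/
structure BdL (S : Setup d F) (R : ℕ → ℝ) (u : ℕ → Cfg d → F) (A : ℝ) : Prop where
  R_lim : Tendsto R atTop atTop
  inv : ∀ n, S.GInv (u n)
  norm : ∀ n, nsq (u n) ≤ A

/-- **Weak profile system**. For every cluster type `i`: Hilbert space `H i` of profiles (`L²(Cfg r; K)`, not symmetrised), dense submodule
`D i` of test profiles (smooth, compactly supported off the collisions), free BMN supercharges `Ds i β` of mass `1`, ground state `g i`, and the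
global functionals `u ↦ ipr (Z i R a) u`. -/
structure PW (S : Setup d F) (ι : Type) where
  H : ι → Type
  [ng : ∀ i, NormedAddCommGroup (H i)]
  [ips : ∀ i, InnerProductSpace ℂ (H i)]
  [cs : ∀ i, CompleteSpace (H i)]
  D : ∀ i, Submodule ℂ (H i)
  Ds : ∀ i, Fin 16 → D i → D i
  g : ∀ i, H i
  Z : ∀ i, ℝ → D i → Cfg d → F
  g_norm : ∀ i, ‖g i‖ = 1
  dense : ∀ i, Dense (D i : Set (H i))
  /-- (F-App) the ground state is a limit in the graph norm -/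
  app : ∀ i (ε : ℝ), 0 < ε → ∃ a : D i, ‖(a : H i) - g i‖ ≤ ε ∧ ∀ β, ‖(Ds i β a : H i)‖ ≤ ε
  /-- (F-Ker) the weak joint kernel is spanned by the ground state -/
  ker : ∀ i (w : H i), (∀ β (a : D i), inner ℂ (Ds i β a : H i) w = 0) → ∃ c : ℂ, w = c • g i
  Z_mem : ∀ i (a : D i), ∀ᶠ R in atTop, MemLp (Z i R a) 2 (volume : Measure (Cfg d))
  /-- asymptotic conjugate linearity in the profile -/
  Z_lin : ∀ i (a b : D i) (c : ℂ) (R : ℕ → ℝ) (u : ℕ → Cfg d → F) (A : ℝ), BdL S R u A →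
    Tendsto (fun n => ipr (Z i (R n) (c • a + b)) (u n) -
      ((starRingEnd ℂ) c * ipr (Z i (R n) a) (u n) + ipr (Z i (R n) b) (u n))) atTop (𝓝 0)
  /-- (UB) uniform bound of the functionals (mass bound up to the collisions) -/
  ub : ∀ i, ∃ C : ℝ, 0 ≤ C ∧ ∀ (a : D i) (R : ℕ → ℝ) (u : ℕ → Cfg d → F) (A : ℝ), BdL S R u A → ∀ ε : ℝ, 0 < ε →
    ∀ᶠ n in atTop, ‖ipr (Z i (R n) a) (u n)‖ ≤ C * ‖(a : H i)‖ * Real.sqrt A + ε

attribute [instance] PW.ng PW.ips PW.cs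

namespace PW

variable {S : Setup d F} {ι : Type} (P : PW S ι)

/-- **(E) limit equation** for bounded sequences (`m = R^{-2}`) -/
def LimEq : Prop := ∀ (R : ℕ → ℝ) (Ψ : ℕ → Cfg d → F) (C : ℝ), Prof.Bdd S R Ψ C → ∀ i β (a : P.D i),
  Tendsto (fun n => (R n : ℂ) * ipr (P.Z i (R n) a) (S.Qm ((R n)⁻¹ ^ 2) β (Ψ n)) -
    ipr (P.Z i (R n) (P.Ds i β a)) (Ψ n)) atTop (𝓝 0)

/-- **(NL) no loss** -/
def NoLoss : Prop := ∀ (R : ℕ → ℝ) (Ψ : ℕ → Cfg d → F) (C : ℝ), Prof.Bdd S R Ψ C →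
  (∀ i (a : P.D i), Tendsto (fun n => ipr (P.Z i (R n) a) (Ψ n)) atTop (𝓝 0)) →
  (∀ ζ : Cfg d → F, Setup.Tst ζ → Tendsto (fun n => ipr ζ (Ψ n)) atTop (𝓝 0)) →
  Tendsto (fun n => nsq (Ψ n)) atTop (𝓝 0)

/-- **(REP)** gauge invariant representatives `J i a ε R` of the functionals (Haar averages of truncated `Z`), only needed for S7 -/
structure Rep (J : ∀ i, P.D i → ℝ → ℝ → Cfg d → F) : Prop where
  inv : ∀ i (a : P.D i) (ε : ℝ), 0 < ε → ∀ᶠ R in atTop, S.GInv (J i a ε R)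
  supp : ∀ i (a : P.D i) (ε : ℝ), 0 < ε → ∃ c : ℝ, 0 < c ∧ ∀ᶠ R in atTop, ∀ x : Cfg d, ‖x‖ ≤ c * R → J i a ε R x = 0
  disj : ∀ i j, i ≠ j → ∀ (a : P.D i) (b : P.D j) (ε ε' : ℝ), 0 < ε → 0 < ε' → ∀ᶠ R in atTop, ∀ x : Cfg d,
    J i a ε R x = 0 ∨ J j b ε' R x = 0
  rep : ∀ i (a : P.D i) (ε : ℝ), 0 < ε → ∀ (R : ℕ → ℝ) (u : ℕ → Cfg d → F) (A : ℝ), BdL S R u A →
    ∀ᶠ n in atTop, ‖ipr (J i a ε (R n)) (u n) - ipr (P.Z i (R n) a) (u n)‖ ≤ ε * Real.sqrt A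
  low : ∀ i, ∃ c₀ ε₀ : ℝ, 0 < c₀ ∧ 0 < ε₀ ∧ ∀ (a : P.D i), ‖(a : P.H i) - P.g i‖ ≤ ε₀ → ∀ ε : ℝ, 0 < ε → ε ≤ ε₀ →
    ∀ᶠ R in atTop, c₀ ≤ nsq (J i a ε R)

end PW

namespace AJ

variable (S : Setup d F)

/-- **J1 (S6)** existence count. PROOF. Let `m_j = R_j^{-2} → 0`, `Low (card ι + 1) m_j (m_j/(j+1))`; choose `a_i ∈ D i` with `‖a_i - g_i‖ ≤ 1/4`
(`app`). A vector `u_j` in the low space with `nsq u_j = 1` and `ipr (Z i R_j a_i) u_j = 0` for all `i ∈ ι` exists by dimension (`ipr` is linear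
in the second argument). Suppose all zero modes vanish. Along an ultrafilter `𝒰` on `ℕ`: `l_i(a) = lim ipr (Z i R_j a) u_j` is conjugate
linear (`Z_lin`) and bounded by `C‖a‖` (`ub`), so `l_i(a) = ⟨a, f_i⟩` (`dense`, Riesz); `LimEq` and `R_j²en(u_j) → 0` (`ub`-free: apply `ub` to the
sequence `R_jQ_βu_j`, whose norm tends to `0`) give `⟨Ds β a, f_i⟩ = 0`, so `f_i = c g_i` (`ker`), `0 = ⟨a_i,f_i⟩ = c⟨a_i,g_i⟩`, `|⟨a_i,g_i⟩| ≥ 3/4`: `f_i = 0`.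
Local limits: `LocStmt` (H10) gives zero modes, so they vanish. Every ultrafilter limit is `0`, so the sequences tend to `0`; `NoLoss` gives
`nsq u_j → 0`: contradiction. -/
def S6Stmt {ι : Type} [Fintype ι] (P : PW S ι) : Prop := P.LimEq → P.NoLoss →
  (∀ m : ℝ, 0 < m → ∀ c : ℝ, 0 < c → S.Low (Fintype.card ι + 1) m c) →
    ∃ Ψ : Lp F 2 (volume : Measure (Cfg d)), S.IsZM Ψ ∧ Ψ ≠ 0

/-- **J2 (S7)** uniqueness count. PROOF. Fix `a_i ∈ D i` with `‖a_i - g_i‖ ≤ ε`, `‖Ds β a_i‖ ≤ ε`, and `f_R = J i a_i ε R`, `nsq f_R ≥ c₀`, `f̂ = f/‖f‖`.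
`w ∈ GInv` with `‖(T+1)w - f̂‖ ≤ δ`, `T = (R²/16)HH` (H7). `‖w‖ ≤ 2`, `⟨w,Tw⟩ ≤ 4`, `‖Tw‖ ≤ 4`; `v_β = R Q_βw`: `nsq v_β ≤ C`, `R²en(v_β) ≤ C` (H1, `m = R^{-2}`), so
`w`, `v_β` are `Bdd`, and `R Q_βv_β` is bounded. `⟨f̂,R²HHw⟩ = ∑_β⟨f̂,RQ_βv_β⟩ = ‖f‖⁻¹∑_β ipr (Z a)(R Q_βv_β) + O(ε) = ‖f‖⁻¹∑_β ipr (Z (Ds β a)) v_β + O(ε) = O(ε)` (`rep`,
`LimEq`, `ub`). So `⟨w,Tw⟩ + ‖Tw‖² = ⟨(T+1)w,Tw⟩ = O(ε + δ)`: `‖f̂ - w‖` and `R²en(w)` and `R⁴‖HHw‖²` are small. H2: `‖J_{kl}w‖` small; H4: torus average `w'`,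
`‖w' - f̂‖` small, `R²en(w')` small. Kernel vectors: H9; `⟨f̂,Ψ⟩ → 0` (`supp`). Different types: disjoint supports. So `b + card ι` almost orthonormal
`InvP plT` functions with `en ≤ κm`, `κ` small. -/
def S7Stmt {ι : Type} [Fintype ι] (P : PW S ι) : Prop := P.LimEq → (∃ J, P.Rep J) →
  ∀ (b : ℕ) (Ψ : Fin b → Lp F 2 (volume : Measure (Cfg d))), (∀ j, S.IsZM (Ψ j)) → LinearIndependent ℂ Ψ →
    ∃ m : ℝ, 0 < m ∧ S.LowP plT (b + Fintype.card ι) m (8 * m)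

/-- **J3 (Top)** `dim ker = 1` -/
def TopStmt : Prop := S.Irr → (∃ v : F, v ≠ 0) → ∀ (ι : Type) [Fintype ι] (P : PW S ι),
  P.LimEq → P.NoLoss → (∃ J, P.Rep J) → S.OrbCount (Fintype.card ι + 1) →
  (∀ m : ℝ, 0 < m → ∀ c : ℝ, 0 < c → S.Low (Fintype.card ι + 1) m c) →
    ∃ Ψ₀ : Lp F 2 (volume : Measure (Cfg d)), S.IsZM Ψ₀ ∧ Ψ₀ ≠ 0 ∧
      ∀ Ψ : Lp F 2 (volume : Measure (Cfg d)), S.IsZM Ψ → ∃ c : ℂ, Ψ = c • Ψ₀

end AJ

end Vale.Agent.P353.Z
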