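import Vale.Agent.P353.AN.JN.AppKer
import Vale.Agent.P353.AN.JN.Defs
import Vale.Agent.P353.AN.L.Stmt
import Vale.Agent.P353.AN.REP.Stmt
import Vale.Agent.P353.AN.E.StmtO
import Vale.Agent.P353.AN.A.Rot

/-! # P353, all `N`: the concrete fields of the weak profile system `PW` (architect helper667)

`Ty S` = data of one cluster type, in its own colour frame `O` (`S' = S.rot 1 O`); `pwT` = the structure `PW` for a finite family of types, from
`AL.UBStmt`, `AL.LinStmt`, `AL.IsoStmt`, `AL.ZMemStmt` (the trial functions are in `L²`) and `AE.RotOStmt`. -/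

open MeasureTheory Filter Topology
open scoped ContDiff

namespace Vale.Agent.P353.Z

variable {d dh dm r ds n : ℕ} {F : Type*} [NormedAddCommGroup F] [InnerProductSpace ℂ F]

/-- **L-ZMem** the trial functions are in `L²` (helper182) -/
def AL.ZMemStmt (S : Setup d F) : Prop := FiniteDimensional ℂ F → ∀ (dh dm r ds : ℕ) (φ : Spl dh dm d) (ψ : Spl r ds dh)
  (L : Finset (Fin r → ℝ)) (Om : Cfg r → Matrix (Fin dm) (Fin dm) ℝ) (K : Submodule ℂ F) (U : Cfg r → F →L[ℂ] F),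
  AX.Bun S φ (AX.Mz S φ (spsw ψ)) L Om K U → ∀ A, IsCompact A → A ⊆ AL.Rg S φ ψ → ∀ R : ℝ, 0 < R →
  ∀ a : Cfg r → Cfg ds → F, AL.Sec2 A a →
    MemLp (AN.Zb φ ψ (fun q => ((AL.chi R q : ℝ) : ℂ) • AN.bG S.κ Om a q) R) 2 (volume : Measure (Cfg d))

namespace AJK

lemma h91 : (1 : Matrix (Fin 9) (Fin 9) ℝ) * (1 : Matrix (Fin 9) (Fin 9) ℝ).transpose = 1 := by
  rw [Matrix.transpose_one, mul_one]

/-- data of one cluster type, in the colour frame `O` -/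
structure Ty (S : Setup d F) where
  O : Matrix (Fin d) (Fin d) ℝ
  hO : O * O.transpose = 1
  dh : ℕ
  dm : ℕ
  r : ℕ
  ds : ℕ
  n : ℕ
  φ : Spl dh dm d
  ψ : Spl r ds dh
  z₀ : Cfg r
  std : AD.Std2 (S.rot 1 h91 O hO) φ (spsw ψ) z₀
  pos : 0 < dm
  L : Finset (Fin r → ℝ)
  Om : Cfg r → Matrix (Fin dm) (Fin dm) ℝ
  K : Submodule ℂ F
  U : Cfg r → F →L[ℂ] F
  o : Fin n → Cfg ds → F
  T : Setup r (AL.Ek n)
  dat : AL.Dat (S.rot 1 h91 O hO) φ ψ L Om K U o T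
  Ω : AL.Ek n
  Ω_norm : ‖Ω‖ = 1
  Ω_am : ∀ A α, T.amF A α Ω = 0
  Ω_one : ∀ w : AL.Ek n, (∀ A α, T.amF A α w = 0) → ∃ c : ℂ, w = c • Ω

/-- the rotated setup -/
noncomputable abbrev Ty.S' {S : Setup d F} (t : Ty S) : Setup d F := S.rot 1 h91 t.O t.hO

/-- the section of a profile -/
noncomputable def secT {S : Setup d F} (t : Ty S) (a : DL t.r (AL.Ek t.n) t.L) : Cfg t.r → Cfg t.ds → F :=
  AL.sc t.U t.o (rp a)

/-- the trial function (representative of the functional) -/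
noncomputable def ZT {S : Setup d F} (t : Ty S) (R : ℝ) (a : DL t.r (AL.Ek t.n) t.L) (x : Cfg d) : F :=
  AN.Zb t.φ t.ψ (fun q => ((AL.chi R q : ℝ) : ℂ) • AN.bG S.κ t.Om (AL.sc t.U t.o (rp a)) q) R (rox 1 t.O x)

/-- normalised ground state -/
noncomputable def gT {S : Setup d F} (t : Ty S) : HL t.r (AL.Ek t.n) :=
  gcl ((((‖(gcl t.Ω : HL t.r (AL.Ek t.n))‖)⁻¹ : ℝ) : ℂ) • t.Ω)

lemma gcl_smul {r : ℕ} {K : Type*} [NormedAddCommGroup K] [InnerProductSpace ℂ K] (c : ℂ) (w : K) :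
    (gcl (c • w) : HL r K) = c • gcl w := by
  refine Lp.ext ?_
  filter_upwards [gcl_ae (r := r) (c • w), Lp.coeFn_smul c (gcl w : HL r K), gcl_ae (r := r) w] with x h1 h2 h3
  rw [h1, h2, Pi.smul_apply, h3, smul_comm]

lemma gss_pos {r : ℕ} (x : Cfg r) : 0 < gss x := Real.exp_pos _

lemma gcl_ne {r : ℕ} {K : Type*} [NormedAddCommGroup K] [InnerProductSpace ℂ K] {w : K} (hw : w ≠ 0) :
    (gcl w : HL r K) ≠ 0 := by
  intro h0
  have h1 := gcl_ae (r := r) w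
  rw [h0] at h1
  have h2 : ∀ᵐ x ∂(volume : Measure (Cfg r)), False := by
    filter_upwards [h1, Lp.coeFn_zero K 2 (volume : Measure (Cfg r))] with x h3 h4
    rw [h4, Pi.zero_apply] at h3
    have h5 := smul_eq_zero.1 h3.symm
    rcases h5 with h5 | h5
    · exact (gss_pos x).ne' (by exact_mod_cast h5)
    · exact hw h5
  have h3 : (volume : Measure (Cfg r)) Set.univ = 0 := by
    have := ae_iff.1 h2
    simpa using this
  exact (Measure.measure_univ_ne_zero.2 (NeZero.ne _)) h3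

section one

variable {S : Setup d F} (t : Ty S)

lemma Ω_ne : t.Ω ≠ 0 := by
  intro h
  have := t.Ω_norm
  rw [h, norm_zero] at this
  exact zero_ne_one this

lemma gT_norm : ‖gT t‖ = 1 := by
  have h0 : ‖(gcl t.Ω : HL t.r (AL.Ek t.n))‖ ≠ 0 := norm_ne_zero_iff.2 (gcl_ne (Ω_ne t))
  rw [gT, gcl_smul, norm_smul, Complex.norm_real, norm_inv, norm_norm, inv_mul_cancel₀ h0]

lemma L_ne : ∀ l ∈ t.L, l ≠ 0 := t.dat.bun.L_ne

lemma appT {ε : ℝ} (hε : 0 < ε) : ∃ a : DL t.r (AL.Ek t.n) t.L, ‖(a : HL t.r (AL.Ek t.n)) - gT t‖ ≤ ε ∧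
    ∀ β, ‖((DsL t.T β a : DL t.r (AL.Ek t.n) t.L) : HL t.r (AL.Ek t.n))‖ ≤ ε := by
  obtain ⟨a, h1, h2⟩ := appL t.T (L_ne t) (w := (((‖(gcl t.Ω : HL t.r (AL.Ek t.n))‖)⁻¹ : ℝ) : ℂ) • t.Ω)
    (fun A α => by rw [map_smul, t.Ω_am, smul_zero]) hε
  exact ⟨a, h1.le, fun β => (h2 β).le⟩

lemma kerT (w : HL t.r (AL.Ek t.n)) (hw : ∀ β (a : DL t.r (AL.Ek t.n) t.L),
    inner ℂ ((DsL t.T β a : DL t.r (AL.Ek t.n) t.L) : HL t.r (AL.Ek t.n)) w = 0) : ∃ c : ℂ, w = c • gT t := by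
  obtain ⟨c, hc⟩ := kerL t.T (L_ne t) t.Ω_one w hw
  have h0 : ‖(gcl t.Ω : HL t.r (AL.Ek t.n))‖ ≠ 0 := norm_ne_zero_iff.2 (gcl_ne (Ω_ne t))
  refine ⟨c * (‖(gcl t.Ω : HL t.r (AL.Ek t.n))‖ : ℂ), ?_⟩
  rw [gT, gcl_smul, smul_smul, mul_assoc, ← Complex.ofReal_mul, mul_inv_cancel₀ h0]
  simpa using hc

/-- `0` is a collision point -/
lemma zero_mem : (0 : Cfg t.r) ∈ Coll t.L := by
  by_contra h
  have h1 := t.dat.bun.det 0 h
  have h2 : (∑ i, DM (AX.Mz t.S' t.φ (spsw t.ψ)) (0 : Cfg t.r) i * DM (AX.Mz t.S' t.φ (spsw t.ψ)) (0 : Cfg t.r) i) = 0 := by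
    refine Finset.sum_eq_zero fun i _ => ?_
    simp [DM]
  rw [h2] at h1
  have : Nonempty (Fin t.dm) := ⟨⟨0, t.pos⟩⟩
  exact h1 Matrix.det_zero

lemma sub_Rg {A : Set (Cfg t.r)} (hA : Disjoint A (Coll t.L)) : A ⊆ AL.Rg t.S' t.φ t.ψ := by
  intro η hη
  have h := t.dat.bun.det η (Set.disjoint_left.1 hA hη)
  rw [AX.DM_Dz] at h
  exact h

/-- a compact set off the collisions lies in a shell -/
lemma in_shl {A : Set (Cfg t.r)} (hA : IsCompact A) (hd : Disjoint A (Coll t.L)) :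
    ∃ s T : ℝ, 0 < s ∧ s < T ∧ A ⊆ AD.shl t.r s T := by
  have h0 : (0 : Cfg t.r) ∉ A := fun h => Set.disjoint_left.1 hd h (zero_mem t)
  obtain ⟨ε, hε, hb⟩ := Metric.isOpen_iff.1 hA.isClosed.isOpen_compl 0 h0
  obtain ⟨M, hM⟩ := hA.isBounded.exists_norm_le
  refine ⟨ε / 2, max M ε + 1, by positivity, by linarith [le_max_right M ε], fun η hη => ⟨?_, ?_⟩⟩
  · by_contra hn
    push Not at hn
    have : η ∈ Metric.ball (0 : Cfg t.r) ε := by
      rw [mem_ball_zero_iff]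
      linarith
    exact hb this hη
  · have := hM η hη
    linarith [le_max_left M ε]

lemma rp_mem (a : DL t.r (AL.Ek t.n) t.L) : MemLp (rp a) 2 (volume : Measure (Cfg t.r)) := (rp_tst a).1.memLp

lemma norm_rp (a : DL t.r (AL.Ek t.n) t.L) : ∫ x, ‖rp a x‖ ^ 2 = ‖(a : HL t.r (AL.Ek t.n))‖ ^ 2 := by
  rw [norm_sq_eq]
  unfold nsq
  refine integral_congr_ae ?_
  filter_upwards [rp_ae a] with x hx
  rw [hx]

/-- profile sections -/
lemma sec2 (hIso : AL.IsoStmt t.S') (a : DL t.r (AL.Ek t.n) t.L) {A : Set (Cfg t.r)} (hA : IsCompact A)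
    (hd : Disjoint A (Coll t.L)) (hs : tsupport (rp a) ⊆ A) :
    AL.Sec2 A (AL.sc t.U t.o (rp a)) ∧ AL.n2 (AL.sc t.U t.o (rp a)) = ‖(a : HL t.r (AL.Ek t.n))‖ ^ 2 := by
  have h := hIso t.dh t.dm t.r t.ds t.n t.φ t.ψ t.L t.Om t.K t.U t.o t.T t.dat A hA
    (Set.subset_compl_iff_disjoint_right.2 hd) (rp a) (rp_mem t a) fun x hx => by
      by_contra hn
      exact hx (hs (subset_tsupport _ hn))
  exact ⟨h.1, h.2.trans (norm_rp t a)⟩

lemma rp_comb (a b : DL t.r (AL.Ek t.n) t.L) (c : ℂ) : rp (c • a + b) = fun x => c • rp a x + rp b x := by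
  refine rp_eq (tstOff_add (tstOff_smul (rp_tst a) c) (rp_tst b)) ?_
  have h0 : (((c • a + b : DL t.r (AL.Ek t.n) t.L)) : HL t.r (AL.Ek t.n)) =
      c • (a : HL t.r (AL.Ek t.n)) + (b : HL t.r (AL.Ek t.n)) := rfl
  rw [h0]
  filter_upwards [Lp.coeFn_add (c • (a : HL t.r (AL.Ek t.n))) (b : HL t.r (AL.Ek t.n)),
    Lp.coeFn_smul c (a : HL t.r (AL.Ek t.n)), rp_ae a, rp_ae b] with x h1 h2 h3 h4
  rw [h1, Pi.add_apply, h2, Pi.smul_apply, h3, h4]

lemma sc_comb (a b : DL t.r (AL.Ek t.n) t.L) (c : ℂ) : AL.sc t.U t.o (rp (c • a + b)) =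
    fun η s => (fun η s => c • AL.sc t.U t.o (rp a) η s) η s + AL.sc t.U t.o (rp b) η s := by
  funext η s
  rw [rp_comb]
  simp only [AL.sc, PiLp.add_apply, PiLp.smul_apply, smul_eq_mul, add_smul, mul_smul, Finset.sum_add_distrib, Finset.smul_sum]

/-- transport of test functions -/
noncomputable def tr (O : Matrix (Fin d) (Fin d) ℝ) (u : Cfg d → F) (x : Cfg d) : F := u (rox 1 O.transpose x)

lemma ipr_ZT (hRot : AE.RotOStmt S) (R : ℝ) (a : DL t.r (AL.Ek t.n) t.L) (u : Cfg d → F) :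
    ipr (ZT t R a) u = AL.ZZ S.κ t.φ t.ψ t.Om (AL.sc t.U t.o (rp a)) R (tr t.O u) :=
  (hRot h91 t.O t.hO).2.2 (AN.Zb t.φ t.ψ (fun q => ((AL.chi R q : ℝ) : ℂ) • AN.bG S.κ t.Om (AL.sc t.U t.o (rp a)) q) R) u

lemma tr_GInv (hRot : AE.RotOStmt S) {u : Cfg d → F} (hu : S.GInv u) : t.S'.GInv (tr t.O u) ∧ nsq (tr t.O u) = nsq u :=
  ⟨((hRot h91 t.O t.hO).1 u hu).1, ((hRot h91 t.O t.hO).1 u hu).2.1⟩

lemma ZT_mem (hfin : FiniteDimensional ℂ F) (hIso : AL.IsoStmt t.S') (hZ : AL.ZMemStmt t.S') (a : DL t.r (AL.Ek t.n) t.L) {R : ℝ}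
    (hR : 0 < R) : MemLp (ZT t R a) 2 (volume : Measure (Cfg d)) := by
  have h := hZ hfin t.dh t.dm t.r t.ds t.φ t.ψ t.L t.Om t.K t.U t.dat.bun (tsupport (rp a)) (rp_tst a).1.2
    (sub_Rg t (rp_tst a).2) R hR _ (sec2 t hIso a (rp_tst a).1.2 (rp_tst a).2 subset_rfl).1
  exact h.comp_measurePreserving (AN.rt_mp h91 t.hO)

lemma ZT_lin (hfin : FiniteDimensional ℂ F) (hRot : AE.RotOStmt S) (hIso : AL.IsoStmt t.S') (hLin : AL.LinStmt t.S')
    (a b : DL t.r (AL.Ek t.n) t.L) (c : ℂ) {R : ℝ} (hR : 0 < R) {u : Cfg d → F} (hu : S.GInv u) :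
    ipr (ZT t R (c • a + b)) u = (starRingEnd ℂ) c * ipr (ZT t R a) u + ipr (ZT t R b) u := by
  have hc : IsCompact (tsupport (rp a) ∪ tsupport (rp b)) := (rp_tst a).1.2.union (rp_tst b).1.2
  have hd : Disjoint (tsupport (rp a) ∪ tsupport (rp b)) (Coll t.L) := Set.disjoint_union_left.2 ⟨(rp_tst a).2, (rp_tst b).2⟩
  obtain ⟨-, h2, h3⟩ := hLin hfin t.dh t.dm t.r t.ds t.φ t.ψ t.L t.Om t.K t.U t.dat.bun _ hc (sub_Rg t hd) R hR
    (tr t.O u) (tr_GInv t hRot hu).1.1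
  have ha := (sec2 t hIso a hc hd Set.subset_union_left).1
  have hb := (sec2 t hIso b hc hd Set.subset_union_right).1
  have hca : AL.Sec2 (tsupport (rp a) ∪ tsupport (rp b)) fun η s => c • AL.sc t.U t.o (rp a) η s :=
    ⟨ha.1.const_smul c, fun η s hne => ha.2 η s fun h0 => hne (by
      change c • AL.sc t.U t.o (rp a) η s = 0
      rw [h0, smul_zero])⟩
  have e1 := h2 _ _ hca hb
  have e2 := h3 c _ ha
  rw [ipr_ZT t hRot, ipr_ZT t hRot, ipr_ZT t hRot, sc_comb]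
  change AL.ZZ t.S'.κ t.φ t.ψ t.Om _ R (tr t.O u) = _ * AL.ZZ t.S'.κ t.φ t.ψ t.Om _ R (tr t.O u) +
    AL.ZZ t.S'.κ t.φ t.ψ t.Om _ R (tr t.O u)
  rw [e1, e2]

lemma mas_le {u : Cfg d → F} (hu : Setup.Tst u) (A : Set (Cfg d)) : AD.mas u A ≤ nsq u := by
  unfold AD.mas nsq
  exact setIntegral_le_integral ((hu.memLp).integrable_norm_pow (by norm_num)) (Eventually.of_forall fun x => by positivity)

lemma ZT_ub (hfin : FiniteDimensional ℂ F) (hRot : AE.RotOStmt S) (hIso : AL.IsoStmt t.S') (hUB : AL.UBStmt t.S')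
    (hC : AN.Cless t.S') : ∃ C : ℝ, 0 ≤ C ∧ ∀ (a : DL t.r (AL.Ek t.n) t.L) (R : ℕ → ℝ) (u : ℕ → Cfg d → F) (A : ℝ), BdL S R u A →
      ∀ ε : ℝ, 0 < ε → ∀ᶠ n in atTop, ‖ipr (ZT t (R n) a) (u n)‖ ≤ C * ‖(a : HL t.r (AL.Ek t.n))‖ * Real.sqrt A + ε := by
  obtain ⟨C, hC0, hb⟩ := hUB hfin hC t.dh t.dm t.r t.ds t.φ t.ψ t.z₀ t.std t.L t.Om t.K t.U t.dat.bun
  refine ⟨C, hC0.le, fun a R u A h ε hε => ?_⟩
  obtain ⟨s, T, hs, hsT, hsh⟩ := in_shl t (rp_tst a).1.2 (rp_tst a).2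
  obtain ⟨hs2, hn2⟩ := sec2 t hIso a (rp_tst a).1.2 (rp_tst a).2 subset_rfl
  have hlim : Tendsto (fun n => max (R n) 1) atTop atTop :=
    tendsto_atTop_mono (fun n => le_max_left _ _) h.R_lim
  have hbd : ∀ (n : ℕ) (B : Set (Cfg d)), AD.mas (tr t.O (u n)) B ≤ A := fun n B =>
    (mas_le (tr_GInv t hRot (h.inv n)).1.1 B).trans ((tr_GInv t hRot (h.inv n)).2.trans_le (h.norm n))
  have hSq : AL.SqM t.S' (fun n => max (R n) 1) fun n => tr t.O (u n) :=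
    ⟨fun n => (tr_GInv t hRot (h.inv n)).1, fun n => lt_of_lt_of_le one_pos (le_max_right _ _), hlim,
      fun s t _ _ => ⟨A, fun n => hbd n _⟩⟩
  have h1 := hb s T hs hsT _ (rp_tst a).1.2 hsh (sub_Rg t (rp_tst a).2) _ _ hSq _ hs2 ε hε
  have h2 : ∀ᶠ n in atTop, max (R n) 1 = R n := by
    filter_upwards [h.R_lim.eventually_ge_atTop 1] with n hn
    exact max_eq_left hn
  filter_upwards [h1, h2] with n h3 h4
  rw [ipr_ZT t hRot, ← h4]
  refine h3.trans ?_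
  rw [hn2, Real.sqrt_sq (norm_nonneg _)]
  have h5 : Real.sqrt (AD.mas (tr t.O (u n)) (AD.shl d (s * max (R n) 1) (T * max (R n) 1))) ≤ Real.sqrt A :=
    Real.sqrt_le_sqrt (hbd n _)
  have h6 := mul_le_mul_of_nonneg_left h5 (mul_nonneg hC0.le (norm_nonneg (a : HL t.r (AL.Ek t.n))))
  linarith

end one

/-- the rotated setup is centreless -/
lemma cless_rot {S : Setup d F} (hC : AN.Cless S) (O : Matrix (Fin d) (Fin d) ℝ) (hO : O * O.transpose = 1) :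
    AN.Cless (S.rot 1 h91 O hO) := by
  intro v hv
  have ho := AN.rt_orth hO
  have key : ∀ B C, ∑ A, (S.rot 1 h91 O hO).f A B C * v A =
      ∑ b, O B b • ∑ c, O C c • ∑ a, S.f a b c * ∑ A, O A a * v A := by
    intro B C
    change ∑ A, (∑ a, ∑ b, ∑ c, O A a * O B b * O C c * S.f a b c) * v A = _
    simp only [smul_eq_mul, Finset.sum_mul, Finset.mul_sum]
    rw [Finset.sum_comm]
    refine (Finset.sum_congr rfl fun a _ => Finset.sum_comm).trans ?_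
    rw [Finset.sum_comm]
    refine Finset.sum_congr rfl fun b _ => ?_
    refine (Finset.sum_congr rfl fun a _ => Finset.sum_comm).trans ?_
    rw [Finset.sum_comm]
    refine Finset.sum_congr rfl fun c _ => Finset.sum_congr rfl fun a _ => Finset.sum_congr rfl fun A _ => ?_
    ring
  have h2 : ∀ k l, (∑ a, S.f a k l * ∑ A, O A a * v A) = 0 := by
    intro k l
    rw [← AN.rt_two (M := ℝ) (fun A a => O A a) ho k l fun b c => ∑ a, S.f a b c * ∑ A, O A a * v A]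
    refine Finset.sum_eq_zero fun B _ => Finset.sum_eq_zero fun C _ => ?_
    rw [← key B C, hv B C, smul_zero]
  have h3 := hC (fun a => ∑ A, O A a * v A) h2
  funext B
  have h4 : ∑ a, O B a * ∑ A, O A a * v A = v B := by
    simp only [Finset.mul_sum, ← mul_assoc]
    rw [Finset.sum_comm]
    simp only [← Finset.sum_mul]
    have h5 : ∀ A, ∑ a, O B a * O A a = if B = A then 1 else 0 := by
      intro A
      have := congrFun (congrFun hO B) A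
      rw [Matrix.mul_apply, Matrix.one_apply] at this
      simpa [Matrix.transpose_apply] using this
    simp [h5]
  rw [← h4]
  refine Finset.sum_eq_zero fun a _ => ?_
  rw [show (∑ A, O A a * v A) = 0 from congrFun h3 a, mul_zero]

/-- **the weak profile system** of a family of types -/
noncomputable def pwT {S : Setup d F} (hfin : FiniteDimensional ℂ F) (hRot : AE.RotOStmt S) (hIso : ∀ S' : Setup d F, AL.IsoStmt S')
    (hLin : ∀ S' : Setup d F, AL.LinStmt S') (hZ : ∀ S' : Setup d F, AL.ZMemStmt S') (hUB : ∀ S' : Setup d F, AL.UBStmt S')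
    {ι : Type} (ty : ι → Ty S) (hC : AN.Cless S) : PW S ι where
  H i := HL (ty i).r (AL.Ek (ty i).n)
  D i := DL (ty i).r (AL.Ek (ty i).n) (ty i).L
  Ds i β a := DsL (ty i).T β a
  g i := gT (ty i)
  Z i R a := ZT (ty i) R a
  g_norm i := gT_norm (ty i)
  dense i := dense (ty i).T (L_ne (ty i))
  app i _ hε := appT (ty i) hε
  ker i w hw := kerT (ty i) w hw
  Z_mem i a := by
    filter_upwards [eventually_gt_atTop (0 : ℝ)] with R hR
    exact ZT_mem (ty i) hfin (hIso _) (hZ _) a hR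
  Z_lin i a b c R u A h := by
    refine (tendsto_congr' ?_).2 tendsto_const_nhds
    filter_upwards [h.R_lim.eventually_gt_atTop 0] with n hn
    rw [ZT_lin (ty i) hfin hRot (hIso _) (hLin _) a b c hn (h.inv n), sub_self]
  ub i := ZT_ub (ty i) hfin hRot (hIso _) (hUB _) (cless_rot hC _ _)

/-- limit equation -/
theorem pwT_limEq {S : Setup d F} (hfin : FiniteDimensional ℂ F) (hRot : AE.RotOStmt S) (hIso : ∀ S' : Setup d F, AL.IsoStmt S')
    (hLin : ∀ S' : Setup d F, AL.LinStmt S') (hZ : ∀ S' : Setup d F, AL.ZMemStmt S') (hUB : ∀ S' : Setup d F, AL.UBStmt S')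
    {ι : Type} (ty : ι → Ty S) (hC : AN.Cless S) (hE : AE.LimOStmt S) (hchi : AE.ChiStmt) :
    (pwT hfin hRot hIso hLin hZ hUB ty hC).LimEq := by
  intro R Ψ C hB i β a
  have h := hE hfin h91 (ty i).O (ty i).hO _ _ _ _ _ (ty i).φ (ty i).ψ (ty i).L (ty i).Om (ty i).K (ty i).U (ty i).o (ty i).T
    (ty i).dat (fun R q => AL.chi R q) (hchi _ _ _) R Ψ C hB β (rp (show DL (ty i).r (AL.Ek (ty i).n) (ty i).L from a)) (rp_tst _)
  rw [← rp_DsL (ty i).T β] at h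
  exact h

end AJK

end Vale.Agent.P353.Z
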