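import Vale.Agent.P353.AN.JN.StmtC
import Vale.Agent.P353.AN.JN.PWf

/-! # P353, all `N`, block JN (helper714): no loss for the concrete system `AJK.pwT` (statements) -/

open MeasureTheory Filter Topology Matrix
open scoped ContDiff

namespace Vale.Agent.P353.Z.AJ

variable {N d : ℕ} {F : Type} [NormedAddCommGroup F] [InnerProductSpace ℂ F]

/-- **(COV)** every commuting point is conjugate to a regular point of one of the strata (owner helper725) -/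
def CovT (M : BFSS.Model N d F) (S : Setup d F) {ι : Type} (ty : ι → AJK.Ty S) : Prop :=
  ∀ Y : Cfg d, Y ≠ 0 → S.V Y = 0 → ∃ (i : ι) (U : BFSS.SU N) (η : Cfg (ty i).r), η ≠ 0 ∧
    η ∈ AL.Rg (ty i).S' (ty i).φ (ty i).ψ ∧ rox 1 (ty i).O (M.act U Y) = emb (ty i).φ (AN.cmb (ty i).ψ η 0) 0

/-- **C8** all slice functionals at a regular point of the stratum `i` vanish if the functionals of type `i` do. PROOF. For `b : AD.TOff L b` (so `TstOff L b`) let `a = AJK.cl b _ : DL`; `rp a = b` (`rp_cl`),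
`ipr (ZT t R a) u = AL.ZZ … (sc U o b) R (tr t.O u)` (`AJK.ipr_ZT`), `tr O u = rotu 1 O u` (`1.transpose = 1`). `SpzOneStmt S`. -/
def TypTStmt (S : Setup d F) : Prop := ∀ hfin : FiniteDimensional ℂ F, SpzOneStmt S →
  (∀ (e : ℕ) (T' : Setup e F), AN.Cless T' → AD.ICStmt T') → ∀ (hRot : AE.RotOStmt S) (hIso : ∀ S' : Setup d F, AL.IsoStmt S')
  (hLin : ∀ S' : Setup d F, AL.LinStmt S') (hZ : ∀ S' : Setup d F, AL.ZMemStmt S') (hUB : ∀ S' : Setup d F, AL.UBStmt S')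
  (ι : Type) (ty : ι → AJK.Ty S) (hC : AN.Cless S) (i : ι) (Y : Cfg d) (η : Cfg (ty i).r), η ≠ 0 →
  η ∈ AL.Rg (ty i).S' (ty i).φ (ty i).ψ → rox 1 (ty i).O Y = emb (ty i).φ (AN.cmb (ty i).ψ η 0) 0 →
  TypHyp S (AJK.pwT hfin hRot hIso hLin hZ hUB ty hC) i Y

/-- **C9** no loss for the concrete system. PROOF: C7 (`NoLossOfStmt`) with `Y' = act U Y` (C6), C8. -/
def NoLossTStmt (M : BFSS.Model N d F) : Prop := ∀ hfin : FiniteDimensional ℂ F, ∀ S : Setup d F, U.Rep M S →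
  AN.REP.CoreStmt M → ActStmt M → NoLossOfStmt S → SpzOneStmt S → TypTStmt S → AT.TWStmt S → AT.BdStmt S → NlStmt S → NulStmt S →
  AD.ShellStmt S → (∀ S' : Setup d F, AD.TrStmt S' ∧ AD.NonCommStmt S' ∧ AD.LocStmt S' ∧ AD.GeoStmt S') →
  (∀ (e : ℕ) (T' : Setup e F), AN.Cless T' → AD.ICStmt T') → ∀ (hRot : AE.RotOStmt S) (hIso : ∀ S' : Setup d F, AL.IsoStmt S')
  (hLin : ∀ S' : Setup d F, AL.LinStmt S') (hZ : ∀ S' : Setup d F, AL.ZMemStmt S') (hUB : ∀ S' : Setup d F, AL.UBStmt S')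
  (ι : Type) (ty : ι → AJK.Ty S) (hC : AN.Cless S), CovT M S ty → (AJK.pwT hfin hRot hIso hLin hZ hUB ty hC).NoLoss

end Vale.Agent.P353.Z.AJ
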