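import Vale.Agent.P353.AN.JN.Fld
import Vale.Agent.P353.AN.L.ZM
import Vale.Agent.P353.AN.X2.Zvc

/-! # P353, all `N`: the vacuum line in the coefficient space of the zero modes (bridge from block X2 to `AL.Dat`) -/

open MeasureTheory Filter Topology
open scoped ContDiff

namespace Vale.Agent.P353.Z.AJK

universe u

variable {d dh dm r ds n : ℕ} {F : Type u} [NormedAddCommGroup F] [InnerProductSpace ℂ F]

lemma isZM_iff (S : Setup d F) (Ψ : Lp F 2 (volume : Measure (Cfg d))) : S.IsZM Ψ ↔ AD.ZM S Ψ := by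
  constructor
  · rintro ⟨u, h1, h2, h3, h4⟩
    refine ⟨u, fun n => ⟨h1 n, h2 n⟩, Lp_L2t h1 h3, ?_⟩
    have h5 : Tendsto (fun n => ∑ β, ∫ x, ‖S.Q β (u n) x‖ ^ 2) atTop (𝓝 (∑ _β : Fin 16, (0 : ℝ))) :=
      tendsto_finsetSum _ fun β _ => h4 β
    rw [Finset.sum_const_zero] at h5
    exact h5
  · rintro ⟨u, h1, h2, h3⟩
    refine ⟨u, fun n => (h1 n).1, fun n => (h1 n).2, h2.lim, fun β => ?_⟩
    refine squeeze_zero (fun n => integral_nonneg fun x => by positivity) (fun n => ?_) h3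
    exact Finset.single_le_sum (f := fun β => ∫ x, ‖S.Q β (u n) x‖ ^ 2)
      (fun β _ => integral_nonneg fun x => by positivity) (Finset.mem_univ β)

variable {S : Setup d F} {φ : Spl dh dm d} {ψ : Spl r ds dh} {L : Finset (Fin r → ℝ)}
  {Om : Cfg r → Matrix (Fin dm) (Fin dm) ℝ} {K : Submodule ℂ F} {U : Cfg r → F →L[ℂ] F} {o : Fin n → Cfg ds → F}
  {T : Setup r (AL.Ek n)} {z₀ : Cfg r}

/-- independence of the basis -/
lemma coef_zero (hd : AL.Dat S φ ψ L Om K U o T) (c : Fin n → ℂ)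
    (h : ∀ᵐ s ∂(volume : Measure (Cfg ds)), ∑ j, c j • o j s = 0) (k : Fin n) : c k = 0 := by
  have h1 : (∫ s, inner ℂ (o k s) (∑ j, c j • o j s)) = c k := by
    simp only [inner_sum, inner_smul_right]
    rw [integral_finsetSum _ fun j _ => (ip_int (hd.mem k) (hd.mem j)).const_mul _]
    simp only [integral_const_mul, hd.ort]
    simp
  rw [← h1]
  have h2 : ∀ᵐ s ∂(volume : Measure (Cfg ds)), inner ℂ (o k s) (∑ j, c j • o j s) = (0 : ℂ) := by
    filter_upwards [h] with s hs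
    rw [hs, inner_zero_right]
  rw [integral_congr_ae h2]
  simp

/-- the centre fermions act by the matrices of `T` -/
lemma th_act (hd : AL.Dat S φ ψ L Om K U o T) (α : Fin 16) (A : Fin r) (w : AL.Ek n) :
    ∀ᵐ s ∂(volume : Measure (Cfg ds)), S.th α (φ (Sum.inl (ψ (Sum.inl A)))) (∑ k, w k • o k s) =
      ∑ j, T.th α A w j • o j s := by
  have h1 : ∀ᵐ s ∂(volume : Measure (Cfg ds)), ∀ k, S.th α (φ (Sum.inl (ψ (Sum.inl A)))) (o k s) =
      ∑ j, T.th α A (EuclideanSpace.single k 1) j • o j s := eventually_countable_forall.2 fun k => hd.thT α A k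
  have h2 : T.th α A w = ∑ k, w k • T.th α A (EuclideanSpace.single k 1) := by
    have h3 : w = ∑ k, w k • (EuclideanSpace.single k 1 : AL.Ek n) := by
      ext j
      simp [Finset.sum_apply, Pi.single_apply]
    conv_lhs => rw [h3]
    rw [map_sum]
    simp only [map_smul]
  filter_upwards [h1] with s hs
  rw [map_sum, h2]
  simp only [map_smul, hs, WithLp.ofLp_sum, WithLp.ofLp_smul, Finset.sum_apply, Pi.smul_apply, smul_eq_mul, Finset.smul_sum,
    Finset.sum_smul, smul_smul]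
  rw [Finset.sum_comm]

/-- annihilators of the centre fermions -/
lemma am_act (hd : AL.Dat S φ ψ L Om K U o T) (h : AD.Std2 S φ (spsw ψ) z₀) (α : Fin 16) (A : Fin r) (w : AL.Ek n) :
    ∀ᵐ s ∂(volume : Measure (Cfg ds)), (AX2.czs h).amF A α (∑ k, w k • o k s) = ∑ j, T.amF A α w j • o j s := by
  have h1 : ∀ᵐ s ∂(volume : Measure (Cfg ds)), ∀ γ, S.th γ (φ (Sum.inl (ψ (Sum.inl A)))) (∑ k, w k • o k s) =
      ∑ j, T.th γ A w j • o j s := eventually_countable_forall.2 fun γ => th_act hd γ A w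
  have hG : T.Gam = S.Gam := by
    rw [Setup.Gam, Setup.Gam, hd.gam]
  filter_upwards [h1] with s hs
  let E : AL.Ek n →ₗ[ℂ] F :=
    { toFun := fun w => ∑ j, w j • o j s
      map_add' := fun w w' => by simp only [PiLp.add_apply, add_smul, Finset.sum_add_distrib]
      map_smul' := fun c w => by simp only [PiLp.smul_apply, smul_eq_mul, mul_smul, Finset.smul_sum, RingHom.id_apply] }
  have e0 : ∑ j, T.amF A α w j • o j s = E (T.amF A α w) := rfl
  rw [e0, AX2.zvc_apply, AX2.zvc_apply, AX2.zvc_lin E, hG]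
  have e1 : ∀ γ, (AX2.czs h).th γ A (∑ k, w k • o k s) = E (T.th γ A w) := fun γ => hs γ
  have e2 : (AX2.czs h).Gam = S.Gam := rfl
  rw [e1, e2]
  simp only [e1]

/-- **the vacuum line** -/
theorem omega (hd : AL.Dat S φ ψ L Om K U o T) (h : AD.Std2 S φ (spsw ψ) z₀) (hZms : AX2.ZmsStmt h.ss)
    (hZ : ∀ α A, ∀ Ψ ∈ h.ss.zms K, Setup.pwa ds ((AX2.czs h).th α A) Ψ ∈ h.ss.zms K) (ho : AX2.ZOut h.ss (AX2.czs h) K hZ) :
    ∃ Ω : AL.Ek n, ‖Ω‖ = 1 ∧ (∀ A α, T.amF A α Ω = 0) ∧ ∀ w : AL.Ek n, (∀ A α, T.amF A α w = 0) → ∃ c : ℂ, w = c • Ω := by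
  obtain ⟨k, hk1, hk2, hk3⟩ := ho.vac
  have hcomb : ∀ w : AL.Ek n, MemLp (fun s => ∑ j, w j • o j s) 2 (volume : Measure (Cfg ds)) := fun w =>
    memLp_finsetSum _ fun j _ => (hd.mem j).const_smul (w j)
  obtain ⟨hadd, hsm, hcg, -, -⟩ := AL.zml (S.int φ ψ hd.sub hd.cen)
  have hzm : ∀ (w : AL.Ek n), AD.ZM (S.int φ ψ hd.sub hd.cen) fun s => ∑ j, w j • o j s := by
    intro w
    have : ∀ s : Finset (Fin n), AD.ZM (S.int φ ψ hd.sub hd.cen) fun x => ∑ j ∈ s, w j • o j x := by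
      intro s
      induction s using Finset.induction_on with
      | empty =>
        refine hcg _ _ (hsm 0 _ ((isZM_iff _ _).1 ((hZms K k).1 k.2).1)) (Eventually.of_forall fun x => ?_)
        simp
      | insert a s ha ih =>
        have := hadd _ _ (hsm (w a) _ (hd.zm a)) ih
        simpa [Finset.sum_insert ha] using this
    exact this Finset.univ
  -- the vector `k`
  obtain ⟨hkz, hkK⟩ := (hZms K k).1 k.2
  obtain ⟨c, hc⟩ := hd.full _ ((isZM_iff _ _).1 hkz) hkK
  set v : AL.Ek n := WithLp.toLp 2 c with hv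
  have hvam : ∀ A α, T.amF A α v = 0 := by
    intro A α
    have h1 := (AX2.zvc_zero (AX2.czs h) _ hZ A α k).1 (hk2 A α)
    ext j
    refine coef_zero hd (fun j => T.amF A α v j) ?_ j
    filter_upwards [am_act hd h α A v, h1, hc] with s e1 e2 e3
    rw [← e1]
    have e4 : (∑ k, v k • o k s) = (k : Lp F 2 (volume : Measure (Cfg ds))) s := e3.symm
    rw [e4, e2]
  have hv0 : v ≠ 0 := by
    intro h0
    have hk0 : k = 0 := by
      apply Subtype.ext
      apply Lp.ext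
      filter_upwards [hc, Lp.coeFn_zero F 2 (volume : Measure (Cfg ds))] with s e1 e2
      have e3 : ∀ j, c j = 0 := fun j => by
        have : v j = 0 := by rw [h0]; rfl
        exact this
      rw [e1]
      simp only [e3, zero_smul, Finset.sum_const_zero]
      exact e2.symm
    rw [hk0, norm_zero] at hk1
    exact zero_ne_one hk1
  have hvn : (‖v‖ : ℂ) ≠ 0 := by exact_mod_cast norm_ne_zero_iff.2 hv0
  refine ⟨((‖v‖⁻¹ : ℝ) : ℂ) • v, ?_, fun A α => by rw [map_smul, hvam, smul_zero], fun w hw => ?_⟩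
  · rw [norm_smul, Complex.norm_real, norm_inv, norm_norm, inv_mul_cancel₀ (norm_ne_zero_iff.2 hv0)]
  · have hwae := (hcomb w).coeFn_toLp
    have hwz : (hcomb w).toLp _ ∈ h.ss.zms K := by
      refine (hZms K _).2 ⟨(isZM_iff _ _).2 (hcg _ _ (hzm w) hwae), ?_⟩
      have hval : ∀ᵐ s ∂(volume : Measure (Cfg ds)), ∀ j, o j s ∈ K := eventually_countable_forall.2 fun j => hd.val j
      filter_upwards [hwae, hval] with s e1 e2
      rw [e1]
      exact K.sum_mem fun j _ => K.smul_mem _ (e2 j)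
    obtain ⟨e, he⟩ := hk3 ⟨_, hwz⟩ fun A α => by
      refine (AX2.zvc_zero (AX2.czs h) _ hZ A α _).2 ?_
      filter_upwards [hwae, am_act hd h α A w] with s e1 e2
      rw [e1, e2, hw]
      simp
    have he' : (hcomb w).toLp _ = e • (k : Lp F 2 (volume : Measure (Cfg ds))) := congrArg Subtype.val he
    refine ⟨e * (‖v‖ : ℂ), ?_⟩
    have key : ∀ j, w j - e * c j = 0 := by
      intro j
      refine coef_zero hd (fun j => w j - e * c j) ?_ j
      filter_upwards [hwae, hc, Lp.coeFn_smul e (k : Lp F 2 (volume : Measure (Cfg ds)))] with s e1 e2 e3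
      rw [he', e3, Pi.smul_apply, e2] at e1
      simp only [sub_smul, mul_smul, Finset.sum_sub_distrib, ← Finset.smul_sum]
      rw [← e1, sub_self]
    ext j
    have h5 := sub_eq_zero.1 (key j)
    have h6 : (((e * (‖v‖ : ℂ)) • ((‖v‖⁻¹ : ℝ) : ℂ) • v : AL.Ek n)) j = (e * (‖v‖ : ℂ)) * (((‖v‖⁻¹ : ℝ) : ℂ) * c j) := rfl
    rw [h6, h5]
    push_cast
    field_simp

end Vale.Agent.P353.Z.AJK
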