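import Vale.Agent.P353.AN.JN.StmtC
import Vale.Agent.P353.AN.G.Act
import Vale.Agent.P353.Z.U.Pack

/-! # P353, all `N`, block JN: C6, null points, centralisers and the potential are invariant under `SU(N)` -/

open MeasureTheory Filter Topology

namespace Vale.Agent.P353.Z.AJ

namespace ActC

variable {d : ℕ} {F : Type} [NormedAddCommGroup F] [InnerProductSpace ℂ F]

theorem actc_mem (S : Setup d F) {O : Matrix (Fin d) (Fin d) ℝ} (hO : O ∈ S.grp) (Y : Cfg d)
    {v : Fin d → ℝ} (hv : v ∈ AD.cz S Y) : O.mulVec v ∈ AD.cz S (ro O Y) := by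
  intro i C
  have hv' : ∀ i C, ∑ A, ∑ B, S.f A B C * v A * Y (i, B) = 0 := hv
  have e : ∀ A B, S.f A B C * O.mulVec v A * ro O Y (i, B) =
      ∑ A', ∑ B', (v A' * Y (i, B')) * (O A A' * O B B' * S.f C A B) := by
    intro A B
    rw [U.grp_ro_apply, Matrix.mulVec, dotProduct, mul_assoc, Finset.sum_mul_sum, Finset.mul_sum]
    refine Finset.sum_congr rfl fun A' _ => ?_
    rw [Finset.mul_sum]
    refine Finset.sum_congr rfl fun B' _ => ?_
    rw [S.f_cyc C A B]
    ring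
  have e2 : ∑ A, ∑ B, S.f A B C * O.mulVec v A * ro O Y (i, B) =
      ∑ A', ∑ B', (v A' * Y (i, B')) * ∑ A, ∑ B, O A A' * O B B' * S.f C A B := by
    simp only [e]
    calc ∑ A, ∑ B, ∑ A', ∑ B', (v A' * Y (i, B')) * (O A A' * O B B' * S.f C A B)
        = ∑ A, ∑ A', ∑ B, ∑ B', (v A' * Y (i, B')) * (O A A' * O B B' * S.f C A B) :=
          Finset.sum_congr rfl fun A _ => Finset.sum_comm
      _ = ∑ A', ∑ A, ∑ B, ∑ B', (v A' * Y (i, B')) * (O A A' * O B B' * S.f C A B) :=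
          Finset.sum_comm
      _ = ∑ A', ∑ A, ∑ B', ∑ B, (v A' * Y (i, B')) * (O A A' * O B B' * S.f C A B) :=
          Finset.sum_congr rfl fun A' _ => Finset.sum_congr rfl fun A _ => Finset.sum_comm
      _ = ∑ A', ∑ B', ∑ A, ∑ B, (v A' * Y (i, B')) * (O A A' * O B B' * S.f C A B) :=
          Finset.sum_congr rfl fun A' _ => Finset.sum_comm
      _ = _ := by
          refine Finset.sum_congr rfl fun A' _ => Finset.sum_congr rfl fun B' _ => ?_
          rw [Finset.mul_sum]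
          refine Finset.sum_congr rfl fun A _ => ?_
          rw [Finset.mul_sum]
  rw [e2]
  have e3 : ∀ A' B', (v A' * Y (i, B')) * ∑ A, ∑ B, O A A' * O B B' * S.f C A B =
      ∑ D, O C D * (S.f A' B' D * v A' * Y (i, B')) := by
    intro A' B'
    rw [U.grp_f S hO.1 hO.2.1 C A' B', Finset.mul_sum]
    refine Finset.sum_congr rfl fun D _ => ?_
    rw [S.f_cyc D A' B']
    ring
  simp only [e3]
  calc ∑ A', ∑ B', ∑ D, O C D * (S.f A' B' D * v A' * Y (i, B'))
      = ∑ A', ∑ D, ∑ B', O C D * (S.f A' B' D * v A' * Y (i, B')) :=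
        Finset.sum_congr rfl fun A' _ => Finset.sum_comm
    _ = ∑ D, ∑ A', ∑ B', O C D * (S.f A' B' D * v A' * Y (i, B')) := Finset.sum_comm
    _ = ∑ D, O C D * ∑ A', ∑ B', S.f A' B' D * v A' * Y (i, B') := by
        refine Finset.sum_congr rfl fun D _ => ?_
        rw [Finset.mul_sum]
        refine Finset.sum_congr rfl fun A' _ => ?_
        rw [Finset.mul_sum]
    _ = 0 := by
        refine Finset.sum_eq_zero fun D _ => ?_
        rw [hv' i D, mul_zero]

theorem actc_le (S : Setup d F) {O : Matrix (Fin d) (Fin d) ℝ} (hO : O ∈ S.grp) (Y : Cfg d) :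
    AD.cd S Y ≤ AD.cd S (ro O Y) := by
  unfold AD.cd
  have hinj : Function.Injective (O.mulVecLin) := by
    intro a b hab
    have h1 : O.transpose.mulVec (O.mulVec a) = O.transpose.mulVec (O.mulVec b) := by
      have h2 : O.mulVec a = O.mulVec b := hab
      rw [h2]
    rwa [Matrix.mulVec_mulVec, Matrix.mulVec_mulVec, hO.1, Matrix.one_mulVec,
      Matrix.one_mulVec] at h1
  have hmap : (AD.cz S Y).map O.mulVecLin ≤ AD.cz S (ro O Y) := by
    rintro _ ⟨v, hv, rfl⟩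
    exact actc_mem S hO Y hv
  calc Module.finrank ℝ (AD.cz S Y)
      = Module.finrank ℝ ((AD.cz S Y).map O.mulVecLin) :=
        (LinearEquiv.finrank_eq (Submodule.equivMapOfInjective _ hinj (AD.cz S Y)))
    _ ≤ _ := Submodule.finrank_mono hmap

theorem actc_inv (S : Setup d F) {O : Matrix (Fin d) (Fin d) ℝ} (hO : O ∈ S.grp) (Y : Cfg d) :
    ro O.transpose (ro O Y) = Y := by
  rw [← U.grp_ro_mul, hO.1, U.grp_ro_one]

theorem actc_cd (S : Setup d F) {O : Matrix (Fin d) (Fin d) ℝ} (hO : O ∈ S.grp) (Y : Cfg d) :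
    AD.cd S (ro O Y) = AD.cd S Y := by
  refine le_antisymm ?_ (actc_le S hO Y)
  have h := actc_le S (U.grp_transpose S hO) (ro O Y)
  rwa [actc_inv S hO Y] at h

theorem actc_smul (O : Matrix (Fin d) (Fin d) ℝ) (c : ℝ) (Y : Cfg d) :
    c • ro O Y = ro O (c • Y) := by
  ext p
  rw [U.grp_ro_apply, PiLp.smul_apply, U.grp_ro_apply, smul_eq_mul, Finset.mul_sum]
  refine Finset.sum_congr rfl fun B _ => ?_
  rw [PiLp.smul_apply, smul_eq_mul]
  ring

theorem actc_nul (S : Setup d F) {O : Matrix (Fin d) (Fin d) ℝ} (hO : O ∈ S.grp) (Y : Cfg d)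
    (R : ℕ → ℝ) (u : ℕ → Cfg d → F) (hu : ∀ k, AD.GInv S (u k))
    (h : AD.Nul R u (ro O Y)) : AD.Nul R u Y := by
  obtain ⟨ε, hε, h1⟩ := h
  refine ⟨ε, hε, ?_⟩
  have e : (fun n => AD.mas (u n) (Metric.ball (R n • Y) (ε * R n))) =
      fun n => AD.mas (u n) (Metric.ball (R n • ro O Y) (ε * R n)) := by
    funext n
    rw [actc_smul]
    exact (U.pack_ball_integral hO.1 (fun x => hO.2.2 (u n) (hu n).1 (hu n).2 x)
      (R n • Y) (ε * R n)).symm
  show Tendsto (fun n => AD.mas (u n) (Metric.ball (R n • Y) (ε * R n))) atTop (𝓝 0)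
  rw [e]
  exact h1

end ActC

/-- **C6** -/
theorem act_stmt {N d : ℕ} {F : Type} [NormedAddCommGroup F] [InnerProductSpace ℂ F]
    (M : BFSS.Model N d F) : ActStmt M := by
  intro _ S hS _ V Y
  have hO := Vale.Agent.P353.AN.G.actO_mem M S hS V
  refine ⟨?_, ?_, fun h => ?_, fun R u hu h => ?_⟩
  · exact U.grp_V S hO.1 hO.2.1 Y
  · exact ActC.actc_cd S hO Y
  · have h1 : ‖ro (Vale.Agent.P353.AN.G.actO M V) Y‖ = ‖Y‖ := U.grp_norm hO.1 Y
    have h2 : ro (Vale.Agent.P353.AN.G.actO M V) Y = 0 := h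
    rw [h2, norm_zero] at h1
    exact norm_eq_zero.1 h1.symm
  · exact ActC.actc_nul S hO Y R u hu h

end Vale.Agent.P353.Z.AJ
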