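import Vale.Agent.P353.AN.JN.StmtC
import Vale.Agent.P353.AN.L.Spz

/-! # P353, all `N`, block JN: sections with values in the profile bundle have coefficients (C1, helper535) -/

open MeasureTheory Filter Topology Matrix
open scoped ContDiff ENNReal

namespace Vale.Agent.P353.Z.AJ

section Gen

variable {r ds n : ℕ} {F : Type*} [NormedAddCommGroup F] [InnerProductSpace ℂ F]

lemma cf_inner_int {f g : Cfg ds → F} (hf : MemLp f 2 (volume : Measure (Cfg ds)))
    (hg : MemLp g 2 (volume : Measure (Cfg ds))) : Integrable fun x => inner ℂ (f x) (g x) := by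
  have h := hf.norm.integrable_mul hg.norm
  refine h.mono' ?_ ?_
  · exact continuous_inner.comp_aestronglyMeasurable (hf.1.prodMk hg.1)
  · exact Eventually.of_forall fun x => by
      simpa using norm_inner_le_norm (𝕜 := ℂ) (f x) (g x)

/-- norm in a fibre -/
lemma cf_fib {U : Cfg r → F →L[ℂ] F} (hU : ∀ η v w, inner ℂ (U η v) (U η w) = inner ℂ v w)
    {o : Fin n → Cfg ds → F} (hm : ∀ j, MemLp (o j) 2 (volume : Measure (Cfg ds)))
    (ort : ∀ j k, ∫ x, inner ℂ (o j x) (o k x) = if j = k then 1 else 0) (b : Cfg r → AL.Ek n) (η : Cfg r) :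
    ∫ s, ‖AL.sc U o b η s‖ ^ 2 = ‖b η‖ ^ 2 := by
  have e : ∀ s, (((‖AL.sc U o b η s‖ ^ 2 : ℝ)) : ℂ) =
      ∑ j, ∑ k, (starRingEnd ℂ) (b η j) * (b η k * inner ℂ (o j s) (o k s)) := by
    intro s
    have : (((‖AL.sc U o b η s‖ ^ 2 : ℝ)) : ℂ) = inner ℂ (AL.sc U o b η s) (AL.sc U o b η s) := by
      rw [inner_self_eq_norm_sq_to_K]; push_cast; rfl
    rw [this, AL.sc, sum_inner]
    refine Finset.sum_congr rfl fun j _ => ?_
    rw [inner_sum]
    refine Finset.sum_congr rfl fun k _ => ?_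
    rw [inner_smul_left, inner_smul_right, hU]
  have hi : ∀ j k, Integrable fun s => (starRingEnd ℂ) (b η j) * (b η k * inner ℂ (o j s) (o k s)) :=
    fun j k => ((cf_inner_int (hm j) (hm k)).const_mul _).const_mul _
  have h1 : ((∫ s, ‖AL.sc U o b η s‖ ^ 2 : ℝ) : ℂ) = ((‖b η‖ ^ 2 : ℝ) : ℂ) := by
    rw [← integral_complex_ofReal]
    simp_rw [e]
    rw [integral_finsetSum _ fun j _ => integrable_finsetSum _ fun k _ => hi j k]
    have : ∀ j, ∫ s, ∑ k, (starRingEnd ℂ) (b η j) * (b η k * inner ℂ (o j s) (o k s)) =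
        (starRingEnd ℂ) (b η j) * b η j := by
      intro j
      rw [integral_finsetSum _ fun k _ => hi j k]
      simp_rw [integral_const_mul, ort]
      simp
    simp_rw [this]
    rw [EuclideanSpace.norm_sq_eq]
    push_cast
    refine Finset.sum_congr rfl fun j _ => ?_
    rw [mul_comm, Complex.mul_conj, Complex.normSq_eq_norm_sq]
    push_cast; rfl
  exact_mod_cast h1

variable [FiniteDimensional ℂ F]

/-- joint measurability of the frame -/
lemma cf_frame {U : Cfg r → F →L[ℂ] F} {Z : Set (Cfg r)} (hZ : IsClosed Z) (hU : ContinuousOn U Zᶜ)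
    (hZ0 : ∀ᵐ η ∂(volume : Measure (Cfg r)), η ∉ Z) {o : Cfg ds → F} (hm : AEStronglyMeasurable o volume) :
    AEStronglyMeasurable (fun q : Cfg r × Cfg ds => U q.1 (o q.2)) (volume.prod volume) := by
  have hUm : AEStronglyMeasurable U (volume : Measure (Cfg r)) := by
    have h1 := hU.aestronglyMeasurable (μ := (volume : Measure (Cfg r))) hZ.isOpen_compl.measurableSet
    have h2 : (volume : Measure (Cfg r)).restrict Zᶜ = volume := Measure.restrict_eq_self_of_ae_mem hZ0
    rwa [h2] at h1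
  exact (isBoundedBilinearMap_apply (𝕜 := ℂ) (E := F) (F := F)).continuous.comp_aestronglyMeasurable
    ((hUm.comp_fst).prodMk (hm.comp_snd))

/-- coefficients of a section -/
noncomputable def cfc (U : Cfg r → F →L[ℂ] F) (o : Fin n → Cfg ds → F) (a : Cfg r → Cfg ds → F) (η : Cfg r) : AL.Ek n :=
  WithLp.toLp 2 fun j => AL.spzc U (o j) (a η) η

lemma cf_meas {U : Cfg r → F →L[ℂ] F} {Z : Set (Cfg r)} (hZ : IsClosed Z) (hU : ContinuousOn U Zᶜ)
    (hZ0 : ∀ᵐ η ∂(volume : Measure (Cfg r)), η ∉ Z) {o : Fin n → Cfg ds → F}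
    (hm : ∀ j, AEStronglyMeasurable (o j) (volume : Measure (Cfg ds))) {a : Cfg r → Cfg ds → F}
    (ha : AEStronglyMeasurable (fun q : Cfg r × Cfg ds => a q.1 q.2) (volume.prod volume)) :
    AEStronglyMeasurable (cfc U o a) (volume : Measure (Cfg r)) := by
  have h1 : ∀ j, AEStronglyMeasurable (fun η => AL.spzc U (o j) (a η) η) (volume : Measure (Cfg r)) := by
    intro j
    have h2 := (cf_frame hZ hU hZ0 (hm j)).inner (𝕜 := ℂ) ha
    exact h2.integral_prod_right'
  have e : cfc U o a = fun η => ∑ j, AL.spzc U (o j) (a η) η • (EuclideanSpace.single j (1 : ℂ) : AL.Ek n) := by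
    funext η
    ext k
    simp [cfc, Pi.single_apply]
  rw [e]
  exact Finset.aestronglyMeasurable_fun_sum _ fun j _ => (h1 j).smul aestronglyMeasurable_const

lemma cf_sc_meas {U : Cfg r → F →L[ℂ] F} {Z : Set (Cfg r)} (hZ : IsClosed Z) (hU : ContinuousOn U Zᶜ)
    (hZ0 : ∀ᵐ η ∂(volume : Measure (Cfg r)), η ∉ Z) {o : Fin n → Cfg ds → F}
    (hm : ∀ j, AEStronglyMeasurable (o j) (volume : Measure (Cfg ds))) {b : Cfg r → AL.Ek n}
    (hb : AEStronglyMeasurable b (volume : Measure (Cfg r))) :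
    AEStronglyMeasurable (fun q : Cfg r × Cfg ds => AL.sc U o b q.1 q.2) (volume.prod volume) := by
  unfold AL.sc
  refine Finset.aestronglyMeasurable_fun_sum _ fun j _ => ?_
  have hbj : AEStronglyMeasurable (fun x => b x j) (volume : Measure (Cfg r)) :=
    (EuclideanSpace.proj (𝕜 := ℂ) j).continuous.comp_aestronglyMeasurable hb
  exact (hbj.comp_fst).smul (cf_frame hZ hU hZ0 (hm j))

omit [FiniteDimensional ℂ F] [InnerProductSpace ℂ F] in
/-- iterated almost everywhere equality -/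
lemma cf_ae {f g : Cfg r × Cfg ds → F} (hf : AEStronglyMeasurable f (volume.prod volume))
    (hg : AEStronglyMeasurable g (volume.prod volume))
    (h : ∀ᵐ η ∂(volume : Measure (Cfg r)), ∀ᵐ s ∂(volume : Measure (Cfg ds)), f (η, s) = g (η, s)) :
    ∀ᵐ q ∂((volume : Measure (Cfg r)).prod (volume : Measure (Cfg ds))), f q = g q := by
  have hd : AEMeasurable (fun q => ‖f q - g q‖ₑ) (volume.prod volume) := (hf.sub hg).enorm
  have h1 : ∫⁻ q, ‖f q - g q‖ₑ ∂((volume : Measure (Cfg r)).prod (volume : Measure (Cfg ds))) = 0 := by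
    rw [lintegral_prod _ hd]
    rw [lintegral_eq_zero_of_ae_eq_zero]
    filter_upwards [h] with η hη
    simp only [Pi.zero_apply]
    refine lintegral_eq_zero_of_ae_eq_zero ?_
    filter_upwards [hη] with s hs
    rw [hs, sub_self, enorm_zero]
    rfl
  rw [lintegral_eq_zero_iff' hd] at h1
  filter_upwards [h1] with q hq
  simp only [Pi.zero_apply, enorm_eq_zero] at hq
  exact sub_eq_zero.1 hq

end Gen

variable {d : ℕ} {F : Type} [NormedAddCommGroup F] [InnerProductSpace ℂ F]

/-- **C1** -/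
theorem coef (S : Setup d F) : CoefStmt S := by
  intro hfin hZML hCut dh dm r ds n φ ψ L Om K U o T hD A hA hARg a ha hz
  obtain ⟨g, -, -, -, -, g5, -⟩ := hCut r L hD.bun.L_ne
  have hUc : ContinuousOn U (Coll L)ᶜ := hD.bun.U_smooth.continuousOn
  have hom : ∀ j, AEStronglyMeasurable (o j) (volume : Measure (Cfg ds)) := fun j => (hD.mem j).1
  have hcm : AEStronglyMeasurable (cfc U o a) (volume : Measure (Cfg r)) :=
    cf_meas hD.bun.closed hUc g5 hom ha.1.1
  have hsec : ∀ᵐ η ∂(volume : Measure (Cfg r)), ∀ᵐ s ∂(volume : Measure (Cfg ds)),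
      a η s = AL.sc U o (cfc U o a) η s := by
    filter_upwards [hz, g5] with η hη hηL
    filter_upwards [AL.spz_sec hD (hZML ds (S.int φ ψ hD.sub hD.cen)) hη.1 hηL, hη.2] with s hs1 hs2
    rw [Submodule.starProjection_eq_self_iff.2 hs2] at hs1
    exact hs1
  have hi : Integrable (fun q : Cfg r × Cfg ds => ‖a q.1 q.2‖ ^ 2) (volume.prod volume) :=
    (memLp_two_iff_integrable_sq_norm ha.1.1).1 ha.1
  refine ⟨cfc U o a, ?_, ?_, ?_⟩
  · rw [memLp_two_iff_integrable_sq_norm hcm]
    have hG : Integrable (fun x => ∫ s, ‖a x s‖ ^ 2) (volume : Measure (Cfg r)) := hi.integral_prod_left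
    refine hG.congr ?_
    filter_upwards [hsec] with η hη
    rw [← cf_fib hD.bun.U_inner hD.mem hD.ort (cfc U o a) η]
    refine integral_congr_ae ?_
    filter_upwards [hη] with s hs
    rw [hs]
  · intro η hη
    have h0 : ∀ s, a η s = 0 := by
      intro s
      by_contra h
      exact hη (ha.2 η s h)
    ext j
    show AL.spzc U (o j) (a η) η = 0
    unfold AL.spzc
    simp only [h0, inner_zero_right, integral_zero]
  · exact cf_ae ha.1.1 (cf_sc_meas hD.bun.closed hUc g5 hom hcm) hsec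

end Vale.Agent.P353.Z.AJ
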