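import Vale.Agent.P353.AN.JN.Stmt

/-! # P353, all `N`, block JN: N4, composition of frames -/

open MeasureTheory Filter Topology
open scoped ContDiff

namespace Vale.Agent.P353.Z.AJ

variable {d dh dm : ℕ} {F : Type*} [NormedAddCommGroup F] [InnerProductSpace ℂ F]

private lemma comp_setup_ext {S T : Setup d F} (hg : S.g = T.g) (hth : S.th = T.th) (hκ : S.κ = T.κ)
    (hf : S.f = T.f) : S = T := by
  obtain ⟨⟨g, g1, g2, th, th1⟩, κ, k1, f, f1, f2, f3, f4, f5⟩ := S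
  obtain ⟨⟨g', g1', g2', th', th1'⟩, κ', k1', f', f1', f2', f3', f4', f5'⟩ := T
  simp only at hg hth hκ hf
  subst hg hth hκ hf
  rfl

private lemma comp_one_smul {n : ℕ} {M : Type*} [AddCommMonoid M] [Module ℂ M] (i : Fin n) (v : Fin n → M) :
    ∑ k, (((1 : Matrix (Fin n) (Fin n) ℝ) i k : ℝ) : ℂ) • v k = v i := by
  have h2 : ∀ k, (((1 : Matrix (Fin n) (Fin n) ℝ) i k : ℝ) : ℂ) • v k = if i = k then v k else 0 := by
    intro k
    rw [Matrix.one_apply]
    split_ifs <;> simp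
  simp only [h2, Finset.sum_ite_eq, Finset.mem_univ, if_true]

private lemma comp_one_mul {n : ℕ} (i : Fin n) (v : Fin n → ℝ) :
    ∑ k, (1 : Matrix (Fin n) (Fin n) ℝ) i k * v k = v i := by
  simp [Matrix.one_apply]

private lemma comp_emb_inl (φ : Spl dh dm d) (y : Cfg dh) (w : Wsp dm) (i : Fin 9) (A : Fin dh) :
    emb φ y w (i, φ (Sum.inl A)) = y (i, A) := by
  simp [emb]

private lemma comp_emb_inr (φ : Spl dh dm d) (y : Cfg dh) (i : Fin 9) (B : Fin dm) :
    emb φ y 0 (i, φ (Sum.inr B)) = 0 := by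
  simp only [emb, Equiv.symm_apply_apply, Sum.elim_inr]
  refine Fin.lastCases ?_ (fun j => ?_) i
  · exact Fin.lastCases_last (motive := fun _ => ℝ)
  · simp

private lemma comp_rox_one (R : Matrix (Fin 9) (Fin 9) ℝ) (x : Cfg d) (p : Fin 9 × Fin d) :
    rox R 1 x p = ∑ j, R p.1 j * x (j, p.2) := by
  have e : rox R 1 x p = ∑ j, ∑ B, R p.1 j * (1 : Matrix (Fin d) (Fin d) ℝ) p.2 B * x (j, B) := rfl
  rw [e]
  refine Finset.sum_congr rfl fun j _ => ?_
  simp only [mul_assoc, ← Finset.mul_sum]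
  rw [comp_one_mul]

/-- **N4** -/
theorem comp (S : Setup d F) : CompStmt S := by
  intro R hR O hO h9 h1
  refine ⟨?_, ?_, ?_⟩
  · apply comp_setup_ext
    · funext i
      show ∑ j, (R i j : ℂ) • (∑ k, (((1 : Matrix (Fin 9) (Fin 9) ℝ) j k : ℝ) : ℂ) • S.g k) = ∑ j, (R i j : ℂ) • S.g j
      refine Finset.sum_congr rfl fun j _ => ?_
      rw [comp_one_smul]
    · funext α A
      show ∑ B, (((1 : Matrix (Fin d) (Fin d) ℝ) A B : ℝ) : ℂ) • (∑ C, (O B C : ℂ) • S.th α C) =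
        ∑ C, (O A C : ℂ) • S.th α C
      rw [comp_one_smul A (fun B => ∑ C, (O B C : ℂ) • S.th α C)]
    · rfl
    · funext A B C
      show ∑ A', ∑ B', ∑ C', (1 : Matrix (Fin d) (Fin d) ℝ) A A' * (1 : Matrix (Fin d) (Fin d) ℝ) B B' *
        (1 : Matrix (Fin d) (Fin d) ℝ) C C' * (∑ A'', ∑ B'', ∑ C'', O A' A'' * O B' B'' * O C' C'' * S.f A'' B'' C'') =
        ∑ A'', ∑ B'', ∑ C'', O A A'' * O B B'' * O C C'' * S.f A'' B'' C''
      simp only [mul_assoc, ← Finset.mul_sum]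
      rw [comp_one_mul A, comp_one_mul B, comp_one_mul C]
  · intro x
    ext p
    rw [comp_rox_one]
    have e : rox R O x p = ∑ j, ∑ B, R p.1 j * O p.2 B * x (j, B) := rfl
    rw [e]
    refine Finset.sum_congr rfl fun j _ => ?_
    have e2 : rox 1 O x (j, p.2) = ∑ j', ∑ B, (1 : Matrix (Fin 9) (Fin 9) ℝ) j j' * O p.2 B * x (j', B) := rfl
    rw [e2]
    simp only [mul_assoc, ← Finset.mul_sum]
    rw [comp_one_mul j (fun j' => ∑ B, O p.2 B * x (j', B))]
  · intro dh dm φ y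
    ext p
    obtain ⟨i, A⟩ := p
    obtain ⟨s, rfl⟩ := φ.surjective A
    rw [comp_rox_one]
    rcases s with A | B
    · rw [comp_emb_inl, comp_rox_one]
      refine Finset.sum_congr rfl fun j _ => ?_
      rw [comp_emb_inl]
    · rw [comp_emb_inr]
      refine Finset.sum_eq_zero fun j _ => ?_
      rw [comp_emb_inr, mul_zero]

end Vale.Agent.P353.Z.AJ
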