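import Vale.Agent.P353.AN.JN.Stmt

/-! # P353, all `N`, block JN: N2, no loss from null points -/

open MeasureTheory Filter Topology
open scoped ContDiff

namespace Vale.Agent.P353.Z.AJ

variable {d : ℕ} {F : Type*} [NormedAddCommGroup F] [InnerProductSpace ℂ F]

omit [InnerProductSpace ℂ F] in
lemma nl471_mas_le {u : Cfg d → F} (hu : MemLp u 2 (volume : Measure (Cfg d))) (A : Set (Cfg d)) :
    AD.mas u A ≤ nsq u := by
  unfold AD.mas nsq
  exact setIntegral_le_integral (memLp_norm_sq_int hu) (Filter.Eventually.of_forall fun x => by positivity)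

lemma nl471_ena_le (S : Setup d F) {u : Cfg d → F} (hu : Setup.Tst u) (A : Set (Cfg d)) :
    AD.ena S u A ≤ AD.En S u := by
  unfold AD.ena AD.En
  refine Finset.sum_le_sum fun β _ => ?_
  exact nl471_mas_le (Setup.Tst.memLp (Setup.Tst.Q S hu β)) A

lemma nl471_En_nonneg (S : Setup d F) (u : Cfg d → F) : 0 ≤ AD.En S u :=
  Finset.sum_nonneg fun _ _ => nsq_nonneg _

lemma nl471_ipr {f g : Cfg d → F} (hf : MemLp f 2 (volume : Measure (Cfg d)))
    (hg : MemLp g 2 (volume : Measure (Cfg d))) : ipr f g = inner ℂ (hf.toLp f) (hg.toLp g) := by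
  rw [ipr, MeasureTheory.L2.inner_def]
  refine integral_congr_ae ?_
  filter_upwards [hf.coeFn_toLp, hg.coeFn_toLp] with x hx hy
  rw [hx, hy]

lemma nl471_cs {f g : Cfg d → F} (hf : MemLp f 2 (volume : Measure (Cfg d)))
    (hg : MemLp g 2 (volume : Measure (Cfg d))) :
    ‖ipr f g‖ ≤ Real.sqrt (nsq f) * Real.sqrt (nsq g) := by
  rw [nl471_ipr hf hg]
  refine (norm_inner_le_norm _ _).trans ?_
  rw [norm_toLp, norm_toLp]

lemma nl471_ipr_sub {f g h : Cfg d → F} (hf : MemLp f 2 (volume : Measure (Cfg d)))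
    (hg : MemLp g 2 (volume : Measure (Cfg d))) (hh : MemLp h 2 (volume : Measure (Cfg d))) :
    ipr (fun x => f x - g x) h = ipr f h - ipr g h := by
  have h1 : MemLp (fun x => f x - g x) 2 (volume : Measure (Cfg d)) := hf.sub hg
  rw [nl471_ipr hf hh, nl471_ipr hg hh, nl471_ipr h1 hh, ← inner_sub_left, ← MemLp.toLp_sub]
  rfl

/-- pairings with `L²` limits of test functions tend to zero -/
lemma nl471_weak {Ψ : ℕ → Cfg d → F} {C : ℝ} (hT : ∀ n, Setup.Tst (Ψ n)) (hC : ∀ n, nsq (Ψ n) ≤ C)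
    (hw : ∀ ζ : Cfg d → F, Setup.Tst ζ → Tendsto (fun n => ipr ζ (Ψ n)) atTop (𝓝 0))
    {v : ℕ → Cfg d → F} {o : Cfg d → F} (hv : ∀ n, Setup.Tst (v n)) (hL : L2t v o) :
    Tendsto (fun n => ipr o (Ψ n)) atTop (𝓝 0) := by
  rw [Metric.tendsto_nhds]
  intro ε hε
  have h1 : Tendsto (fun k => Real.sqrt (nsq (fun x => v k x - o x)) * Real.sqrt C) atTop (𝓝 0) := by
    have h2 := (Real.continuous_sqrt.tendsto 0).comp hL.lim
    rw [Real.sqrt_zero] at h2
    simpa using h2.mul_const (Real.sqrt C)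
  have h3 : ∀ᶠ k in atTop, Real.sqrt (nsq (fun x => v k x - o x)) * Real.sqrt C < ε / 2 :=
    h1.eventually_lt_const (by positivity)
  obtain ⟨k, hk⟩ := h3.exists
  have h4 := (Metric.tendsto_nhds.1 (hw (v k) (hv k))) (ε / 2) (by positivity)
  filter_upwards [h4] with n hn
  rw [dist_zero_right] at hn ⊢
  have h5 : ipr o (Ψ n) = ipr (v k) (Ψ n) - ipr (fun x => v k x - o x) (Ψ n) := by
    rw [nl471_ipr_sub (hL.mem k) hL.mem' (hT n).memLp]
    ring
  have h6 : ‖ipr (fun x => v k x - o x) (Ψ n)‖ ≤ Real.sqrt (nsq (fun x => v k x - o x)) * Real.sqrt C :=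
    (nl471_cs ((hL.mem k).sub hL.mem') (hT n).memLp).trans
      (mul_le_mul_of_nonneg_left (Real.sqrt_le_sqrt (hC n)) (Real.sqrt_nonneg _))
  rw [h5]
  calc ‖ipr (v k) (Ψ n) - ipr (fun x => v k x - o x) (Ψ n)‖
      ≤ ‖ipr (v k) (Ψ n)‖ + ‖ipr (fun x => v k x - o x) (Ψ n)‖ := norm_sub_le _ _
    _ < ε := by linarith

/-- finite combination: pointwise Cauchy-Schwarz -/
lemma nl471_comb {k : ℕ} (c : Fin k → ℂ) (o : Fin k → Cfg d → F) (x : Cfg d) :
    ‖∑ j, c j • o j x‖ ^ 2 ≤ (∑ j, ‖c j‖ ^ 2) * ∑ j, ‖o j x‖ ^ 2 := by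
  have h1 : ‖∑ j, c j • o j x‖ ≤ ∑ j, ‖c j‖ * ‖o j x‖ :=
    (norm_sum_le _ _).trans (Finset.sum_le_sum fun j _ => (norm_smul _ _).le)
  exact (pow_le_pow_left₀ (norm_nonneg _) h1 2).trans (Finset.sum_mul_sq_le_sq_mul_sq _ _ _)

/-- mass in a ball after subtracting a finite combination -/
lemma nl471_ball {k : ℕ} {u : Cfg d → F} (hu : MemLp u 2 (volume : Measure (Cfg d))) (c : Fin k → ℂ)
    {o : Fin k → Cfg d → F} (ho : ∀ j, MemLp (o j) 2 (volume : Measure (Cfg d))) (A : Set (Cfg d)) :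
    AD.mas u A ≤ 2 * AD.mas (fun x => u x - ∑ j, c j • o j x) A + 2 * ((∑ j, ‖c j‖ ^ 2) * ∑ j, nsq (o j)) := by
  have hP : MemLp (fun x => ∑ j, c j • o j x) 2 (volume : Measure (Cfg d)) :=
    memLp_finsetSum _ fun j _ => (ho j).const_smul (c j)
  have hD : MemLp (fun x => u x - ∑ j, c j • o j x) 2 (volume : Measure (Cfg d)) := hu.sub hP
  have hI : Integrable (fun x => (∑ j, ‖c j‖ ^ 2) * ∑ j, ‖o j x‖ ^ 2) (volume : Measure (Cfg d)) :=
    (integrable_finsetSum _ fun j _ => memLp_norm_sq_int (ho j)).const_mul _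
  have h2 : AD.mas u A ≤ ∫ x in A, (2 * ‖u x - ∑ j, c j • o j x‖ ^ 2 +
      2 * ((∑ j, ‖c j‖ ^ 2) * ∑ j, ‖o j x‖ ^ 2)) := by
    unfold AD.mas
    refine integral_mono_of_nonneg (Filter.Eventually.of_forall fun x => by positivity)
      (((memLp_norm_sq_int hD).integrableOn.const_mul 2).add (hI.integrableOn.const_mul 2))
      (Filter.Eventually.of_forall fun x => ?_)
    have h3 := nl471_comb c o x
    have h4 : ‖u x‖ ≤ ‖u x - ∑ j, c j • o j x‖ + ‖∑ j, c j • o j x‖ := by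
      simpa using norm_add_le (u x - ∑ j, c j • o j x) (∑ j, c j • o j x)
    have h5 : ‖u x‖ ^ 2 ≤ (‖u x - ∑ j, c j • o j x‖ + ‖∑ j, c j • o j x‖) ^ 2 :=
      pow_le_pow_left₀ (norm_nonneg _) h4 2
    have h6 := sq_nonneg (‖u x - ∑ j, c j • o j x‖ - ‖∑ j, c j • o j x‖)
    show ‖u x‖ ^ 2 ≤ 2 * ‖u x - ∑ j, c j • o j x‖ ^ 2 + 2 * ((∑ j, ‖c j‖ ^ 2) * ∑ j, ‖o j x‖ ^ 2)
    nlinarith only [h3, h5, h6]
  refine h2.trans ?_
  rw [integral_add ((memLp_norm_sq_int hD).integrableOn.const_mul 2) (hI.integrableOn.const_mul 2),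
    integral_const_mul, integral_const_mul, integral_const_mul]
  have h7 : ∫ x in A, ∑ j, ‖o j x‖ ^ 2 ≤ ∑ j, nsq (o j) := by
    rw [integral_finsetSum _ fun j _ => (memLp_norm_sq_int (ho j)).integrableOn]
    exact Finset.sum_le_sum fun j _ => nl471_mas_le (ho j) A
  have h8 : 0 ≤ ∑ j, ‖c j‖ ^ 2 := Finset.sum_nonneg fun _ _ => by positivity
  have h9 := mul_le_mul_of_nonneg_left h7 h8
  unfold AD.mas
  linarith

omit [InnerProductSpace ℂ F] in
/-- splitting of the total mass -/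
lemma nl471_split {u : Cfg d → F} (hu : MemLp u 2 (volume : Measure (Cfg d))) {a b : ℝ} :
    nsq u ≤ AD.mas u (Metric.ball 0 (2 * a)) + AD.mas u (AD.shl d a b) + AD.mas u {x | b ≤ ‖x‖} ∨ a ≤ 0 := by
  by_cases ha : a ≤ 0
  · exact Or.inr ha
  left
  push Not at ha
  have hI := memLp_norm_sq_int hu
  have m1 : MeasurableSet (Metric.ball (0 : Cfg d) (2 * a)) := Metric.isOpen_ball.measurableSet
  have m2 : MeasurableSet (AD.shl d a b) :=
    ((isOpen_lt continuous_const continuous_norm).inter (isOpen_lt continuous_norm continuous_const)).measurableSet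
  have m3 : MeasurableSet {x : Cfg d | b ≤ ‖x‖} := (isClosed_le continuous_const continuous_norm).measurableSet
  have h1 : ∀ x, ‖u x‖ ^ 2 ≤ (Metric.ball (0 : Cfg d) (2 * a)).indicator (fun x => ‖u x‖ ^ 2) x +
      (AD.shl d a b).indicator (fun x => ‖u x‖ ^ 2) x + {x : Cfg d | b ≤ ‖x‖}.indicator (fun x => ‖u x‖ ^ 2) x := by
    intro x
    have p : ∀ B : Set (Cfg d), 0 ≤ B.indicator (fun x => ‖u x‖ ^ 2) x := fun B =>
      Set.indicator_nonneg (fun _ _ => by positivity) x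
    by_cases hx : ‖x‖ < 2 * a
    · have hm : x ∈ Metric.ball (0 : Cfg d) (2 * a) := by simpa using hx
      rw [Set.indicator_of_mem hm]
      linarith [p (AD.shl d a b), p {x : Cfg d | b ≤ ‖x‖}]
    · by_cases hb : b ≤ ‖x‖
      · have hm : x ∈ {x : Cfg d | b ≤ ‖x‖} := hb
        rw [Set.indicator_of_mem hm]
        linarith [p (AD.shl d a b), p (Metric.ball (0 : Cfg d) (2 * a))]
      · have hm : x ∈ AD.shl d a b := ⟨by linarith, not_le.1 hb⟩
        rw [Set.indicator_of_mem hm]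
        linarith [p {x : Cfg d | b ≤ ‖x‖}, p (Metric.ball (0 : Cfg d) (2 * a))]
  have h2 : nsq u ≤ ∫ x, ((Metric.ball (0 : Cfg d) (2 * a)).indicator (fun x => ‖u x‖ ^ 2) x +
      (AD.shl d a b).indicator (fun x => ‖u x‖ ^ 2) x + {x : Cfg d | b ≤ ‖x‖}.indicator (fun x => ‖u x‖ ^ 2) x) :=
    integral_mono hI (((hI.indicator m1).add (hI.indicator m2)).add (hI.indicator m3)) h1
  refine h2.trans (le_of_eq ?_)
  have i12 : Integrable (fun x => (Metric.ball (0 : Cfg d) (2 * a)).indicator (fun x => ‖u x‖ ^ 2) x +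
      (AD.shl d a b).indicator (fun x => ‖u x‖ ^ 2) x) (volume : Measure (Cfg d)) :=
    (hI.indicator m1).add (hI.indicator m2)
  rw [integral_add i12 (hI.indicator m3),
    integral_add (hI.indicator m1) (hI.indicator m2), integral_indicator m1, integral_indicator m2,
    integral_indicator m3]
  rfl

/-- **N2** -/
theorem nl (S : Setup d F) : NlStmt S := by
  intro _ hTW hBd hIC hSh Rn Ψ C hB hNul hw
  obtain ⟨K, hK, hE⟩ := hBd hTW
  obtain ⟨k, o, C2, hC2, hZ, -, hI⟩ := hIC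
  have hT : ∀ n, Setup.Tst (Ψ n) := fun n => (hB.inv n).1
  have hG : ∀ n, AD.GInv S (Ψ n) := fun n => ⟨(hB.inv n).1, (hB.inv n).2⟩
  have hC : 0 ≤ C := (nsq_nonneg (Ψ 0)).trans (hB.norm 0)
  have hKC : 0 ≤ K * C := mul_nonneg hK hC
  set R' : ℕ → ℝ := fun n => max (Rn n) 1 with hR'
  have hR1 : ∀ n, 1 ≤ R' n := fun n => le_max_right _ _
  have hR0 : ∀ n, 0 < R' n := fun n => lt_of_lt_of_le one_pos (hR1 n)
  have hlim : Tendsto R' atTop atTop := tendsto_atTop_mono (fun n => le_max_left _ _) hB.R_lim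
  obtain ⟨N, hN⟩ := (eventually_atTop.1 (hB.R_lim.eventually_ge_atTop 1))
  have hRe : ∀ n, N ≤ n → R' n = Rn n := fun n hn => max_eq_left (hN n hn)
  have hEn : ∀ n, N ≤ n → R' n ^ 2 * AD.En S (Ψ n) ≤ K * C ∧
      ∀ L : ℝ, 0 < L → AD.mas (Ψ n) {x | L * R' n ≤ ‖x‖} ≤ K * C / L ^ 2 := by
    intro n hn
    rw [hRe n hn]
    exact hE (Rn n) (hN n hn) (Ψ n) (hG n) C (hB.norm n) (hB.energy n)
  have hSq : AD.Sq S R' Ψ := by
    refine ⟨hG, hR0, hlim, ?_⟩
    intro s t _ _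
    refine ⟨C + (K * C + ∑ i ∈ Finset.range N, R' i ^ 2 * AD.En S (Ψ i)), fun n => ?_⟩
    have e1 : AD.mas (Ψ n) (AD.shl d (s * R' n) (t * R' n)) ≤ C := (nl471_mas_le (hT n).memLp _).trans (hB.norm n)
    have e2 : R' n ^ 2 * AD.ena S (Ψ n) (AD.shl d (s * R' n) (t * R' n)) ≤ R' n ^ 2 * AD.En S (Ψ n) :=
      mul_le_mul_of_nonneg_left (nl471_ena_le S (hT n) _) (by positivity)
    have e3 : ∀ i, 0 ≤ R' i ^ 2 * AD.En S (Ψ i) := fun i => mul_nonneg (by positivity) (nl471_En_nonneg S _)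
    have e4 : 0 ≤ ∑ i ∈ Finset.range N, R' i ^ 2 * AD.En S (Ψ i) := Finset.sum_nonneg fun i _ => e3 i
    have e5 : R' n ^ 2 * AD.En S (Ψ n) ≤ K * C + ∑ i ∈ Finset.range N, R' i ^ 2 * AD.En S (Ψ i) := by
      by_cases hn : N ≤ n
      · linarith [(hEn n hn).1]
      · have := Finset.single_le_sum (f := fun i => R' i ^ 2 * AD.En S (Ψ i)) (fun i _ => e3 i)
          (Finset.mem_range.2 (not_le.1 hn))
        linarith
    linarith
  have hshell := hSh R' Ψ hSq (hNul hSq)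
  have ho : ∀ j, MemLp (o j) 2 (volume : Measure (Cfg d)) := fun j => by
    obtain ⟨v, -, hL, -⟩ := hZ j
    exact hL.mem'
  have hc : ∀ j, Tendsto (fun n => ipr (o j) (Ψ n)) atTop (𝓝 0) := fun j => by
    obtain ⟨v, hv, hL, -⟩ := hZ j
    exact nl471_weak hT hB.norm hw (fun n => (hv n).1) hL
  have hcs : Tendsto (fun n => 2 * ((∑ j, ‖ipr (o j) (Ψ n)‖ ^ 2) * ∑ j, nsq (o j))) atTop (𝓝 0) := by
    have h1 : Tendsto (fun n => ∑ j, ‖ipr (o j) (Ψ n)‖ ^ 2) atTop (𝓝 (∑ _j : Fin k, (0 : ℝ))) := by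
      refine tendsto_finsetSum _ fun j _ => ?_
      have h2 := (hc j).norm.pow 2
      simpa using h2
    rw [Finset.sum_const_zero] at h1
    simpa using (h1.mul_const (∑ j, nsq (o j))).const_mul 2
  rw [Metric.tendsto_nhds]
  intro δ hδ
  -- constants
  set D : ℝ := 8 * C2 * (K * C) + 1 with hD
  have hDp : 0 < D := by positivity
  set η : ℝ := min (1 / 2) (δ / 4 / D) with hη
  have hη0 : 0 < η := lt_min (by norm_num) (by positivity)
  have hη1 : η ≤ 1 / 2 := min_le_left _ _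
  have hη2 : η ≤ δ / 4 / D := min_le_right _ _
  have hηD : 8 * C2 * (K * C) * η ^ 2 ≤ δ / 4 := by
    have a1 : D * η ≤ δ / 4 := by
      rw [le_div_iff₀ hDp] at hη2
      linarith
    have a2 : η ^ 2 ≤ η := by nlinarith only [hη0, hη1]
    have a3 : 0 ≤ 8 * C2 * (K * C) := by positivity
    have a4 := mul_le_mul_of_nonneg_left a2 a3
    nlinarith only [a1, a4, hη0, hD]
  set L : ℝ := 1 + 8 * (K * C) / δ with hL
  have hL0 : 0 ≤ 8 * (K * C) / δ := by positivity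
  have hL1 : 1 ≤ L := by linarith
  have hLp : 0 < L := by linarith
  have hLt : K * C / L ^ 2 ≤ δ / 8 := by
    rw [div_le_iff₀ (by positivity)]
    have b1 : 8 * (K * C) ≤ δ * L := by
      rw [hL]
      have : δ * (1 + 8 * (K * C) / δ) = δ + 8 * (K * C) := by field_simp
      rw [this]
      linarith
    have b2 : L ≤ L ^ 2 := by nlinarith only [hL1]
    have b3 := mul_le_mul_of_nonneg_left b2 hδ.le
    nlinarith only [b1, b3]
  have ev1 : ∀ᶠ n in atTop, 1 ≤ 2 * (η * R' n) := by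
    have h1 : Tendsto (fun n => 2 * η * R' n) atTop atTop := hlim.const_mul_atTop (by positivity)
    filter_upwards [h1.eventually_ge_atTop 1] with n hn
    linarith
  have ev2 : ∀ᶠ n in atTop, 2 * ((∑ j, ‖ipr (o j) (Ψ n)‖ ^ 2) * ∑ j, nsq (o j)) < δ / 4 :=
    hcs.eventually_lt_const (by positivity)
  have ev3 : ∀ᶠ n in atTop, AD.mas (Ψ n) (AD.shl d (η * R' n) (L * R' n)) < δ / 4 :=
    (hshell η L hη0 (by linarith)).eventually_lt_const (by positivity)
  filter_upwards [ev1, ev2, ev3, eventually_ge_atTop N] with n h1 h2 h3 h4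
  obtain ⟨h5, h6⟩ := hEn n h4
  have h7 := h6 L hLp
  have h8 := hI (2 * (η * R' n)) h1 (Ψ n) (hG n)
  have h9 := nl471_ball (hT n).memLp (fun j => ipr (o j) (Ψ n)) ho (Metric.ball 0 (2 * (η * R' n)))
  have h10 : C2 * (2 * (η * R' n)) ^ 2 * AD.En S (Ψ n) ≤ 4 * C2 * η ^ 2 * (K * C) := by
    have c1 := mul_le_mul_of_nonneg_left h5 (show (0 : ℝ) ≤ 4 * C2 * η ^ 2 by positivity)
    nlinarith only [c1]
  have h11 : AD.mas (fun x => Ψ n x - ∑ j, ipr (o j) (Ψ n) • o j x) (Metric.ball 0 (2 * (η * R' n))) ≤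
      4 * C2 * η ^ 2 * (K * C) := h8.trans h10
  rcases nl471_split (hT n).memLp (a := η * R' n) (b := L * R' n) with h12 | h12
  · rw [dist_zero_right, Real.norm_of_nonneg (nsq_nonneg _)]
    nlinarith only [h12, h9, h11, h2, h3, h7, hηD, hLt, hδ]
  · exact absurd h12 (not_le.2 (mul_pos hη0 (hR0 n)))

end Vale.Agent.P353.Z.AJ
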