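import Vale.Agent.P353.AN.JN.StmtC

/-! # P353, all `N`, block JN, C7: no loss of mass from the null points -/

open MeasureTheory Filter Topology Matrix
open scoped ContDiff

namespace Vale.Agent.P353.Z.AJ

variable {d : ℕ} {F : Type} [NormedAddCommGroup F] [InnerProductSpace ℂ F]

private lemma nlc7_ena_nonneg (S : Setup d F) (u : Cfg d → F) (A : Set (Cfg d)) :
    0 ≤ AD.ena S u A :=
  Finset.sum_nonneg fun _ _ => integral_nonneg fun _ => sq_nonneg _

private lemma nlc7_sqM {S : Setup d F} {R : ℕ → ℝ} {u : ℕ → Cfg d → F} (h : AD.Sq S R u) :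
    AL.SqM S R u where
  inv := h.inv
  pos := h.pos
  lim := h.lim
  bd s t hs hst := by
    obtain ⟨C, hC⟩ := h.bd s t hs hst
    exact ⟨C, fun n => (le_add_of_nonneg_right
      (mul_nonneg (sq_nonneg _) (nlc7_ena_nonneg _ _ _))).trans (hC n)⟩

/-- **C7** no loss. -/
theorem no_loss_of (S : Setup d F) : NoLossOfStmt S := by
  intro hF hCl hTW hBd hNl hNul hSh hS' hIC ι P hyp R Ψ C hb hZ hloc
  refine hNl hF hTW hBd (hIC d S hCl) hSh R Ψ C hb (fun hSq Y hY => ?_) hloc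
  refine hNul hF (hS' S).1 (hS' S).2.1
    (fun Q hQ O hO => ⟨(hS' (S.rot Q hQ O hO)).2.2.1, (hS' (S.rot Q hQ O hO)).2.1,
      (hS' (S.rot Q hQ O hO)).2.2.2⟩) hIC (fun n => max (R n) 1) Ψ hSq (fun Y hY hV => ?_) Y hY
  obtain ⟨Y', h1, h2, h3, h4, i, hi⟩ := hyp Y hY hV
  refine ⟨Y', h1, h2, h3, h4 _ _ hSq.inv, hi _ _ (nlc7_sqM hSq) fun a => ?_⟩
  have he : ∀ᶠ n in atTop, R n = max (R n) 1 := by
    filter_upwards [hb.R_lim.eventually_ge_atTop 1] with n hn
    exact (max_eq_left hn).symm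
  refine (hZ i a).congr' ?_
  filter_upwards [he] with n hn
  rw [← hn]

end Vale.Agent.P353.Z.AJ
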