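import Vale.Agent.P353.AN.JN.StmtD

/-! # P353, all `N`, block JN, C9: no loss for the concrete system -/

open MeasureTheory Filter Topology Matrix
open scoped ContDiff

namespace Vale.Agent.P353.Z.AJ

variable {N d : ℕ} {F : Type} [NormedAddCommGroup F] [InnerProductSpace ℂ F]

/-- **C9** -/
theorem no_loss_T (M : BFSS.Model N d F) : NoLossTStmt M := by
  intro hfin S hRep hCore hAct hNLO hSpz hTyp hTW hBd hNl hNul hShell hAll hIC hRot hIso hLin hZ
    hUB ι ty hC hCov
  refine hNLO hfin hC hTW hBd hNl hNul hShell hAll hIC ι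
    (AJK.pwT hfin hRot hIso hLin hZ hUB ty hC) ?_
  intro Y hY hV
  obtain ⟨i, U, η, hη, hreg, hemb⟩ := hCov Y hY hV
  obtain ⟨a1, a2, a3, a4⟩ := hAct hfin S hRep hCore U Y
  exact ⟨M.act U Y, fun h => hY (a3 h), a1.trans hV, a2, a4, i,
    hTyp hfin hSpz hIC hRot hIso hLin hZ hUB ι ty hC i (M.act U Y) η hη hreg hemb⟩

end Vale.Agent.P353.Z.AJ
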