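import Vale.Agent.P353.AN.JN.Stmt
import Vale.Agent.P353.AN.A.Rot

/-! # P353, all `N`, block JN: N1, all points are null -/

open MeasureTheory Filter Topology

namespace Vale.Agent.P353.Z.AJ

variable {d : ℕ} {F : Type*} [NormedAddCommGroup F] [InnerProductSpace ℂ F]

/-- the rotations are inverse to each other -/
theorem nulb_inv (S : Setup d F) {R : Matrix (Fin 9) (Fin 9) ℝ} (hR : R * R.transpose = 1)
    {O : Matrix (Fin d) (Fin d) ℝ} (hO : O * O.transpose = 1) (x : Cfg d) :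
    rox R O (rox R.transpose O.transpose x) = x := by
  have hR' : R.transpose * R.transpose.transpose = 1 := by
    rw [Matrix.transpose_transpose]
    exact mul_eq_one_comm.1 hR
  have hO' : O.transpose * O.transpose.transpose = 1 := by
    rw [Matrix.transpose_transpose]
    exact mul_eq_one_comm.1 hO
  have h := (AN.rot_stmt S R.transpose hR' O.transpose hO').2.2.1 x
  simpa only [Matrix.transpose_transpose] using h

theorem nulb_norm (S : Setup d F) {R : Matrix (Fin 9) (Fin 9) ℝ} (hR : R * R.transpose = 1)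
    {O : Matrix (Fin d) (Fin d) ℝ} (hO : O * O.transpose = 1) (x : Cfg d) :
    ‖rox R O x‖ = ‖x‖ := (AN.rot_stmt S R hR O hO).1 x

theorem nulb_ne (S : Setup d F) {R : Matrix (Fin 9) (Fin 9) ℝ} (hR : R * R.transpose = 1)
    {O : Matrix (Fin d) (Fin d) ℝ} (hO : O * O.transpose = 1) {x : Cfg d} :
    rox R O x ≠ 0 ↔ x ≠ 0 := by
  rw [← norm_ne_zero_iff, nulb_norm S hR hO, norm_ne_zero_iff]

/-- **N1** -/
theorem nulB (S : Setup d F) : NulStmt S := by
  intro hfd hTr hNC hrot hIC Rn u hSq hyp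
  have key : ∀ m : ℕ, ∀ Y, Y ≠ 0 → S.V Y = 0 → AD.cd S Y = m → AD.Nul Rn u Y := by
    intro m
    induction m using Nat.strong_induction_on with
    | _ m IH =>
      intro Y hY hV hm
      obtain ⟨Y', hY', _, hcd, himp, hspz⟩ := hyp Y hY hV
      refine himp ?_
      obtain ⟨R, hR, O, hO, dh, dm, ds, dz, φ, ψ, z₀, h, hpt, ε₁, hε₁, hSPZ⟩ := hspz
      obtain ⟨hLoc, hNC', hGeo⟩ := hrot R hR O hO
      obtain ⟨t1, _, t3, t4, t5, _⟩ := hTr R hR O hO Rn u
      have hSq' := t1 hSq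
      have hne : emb φ (AD.cmb ψ 0 z₀) 0 ≠ 0 := by
        rw [← hpt]
        exact (nulb_ne S hR hO).2 hY'
      obtain ⟨ε₀, hε₀, hL⟩ := hLoc hfd dh dm ds dz φ ψ z₀ h hne (hIC ds h.ss h.less)
      obtain ⟨ε₂, hε₂, hL2⟩ := hL (min ε₀ ε₁) (lt_min hε₀ hε₁) (min_le_left _ _)
      have hdh : dh = m := by
        rw [← (hGeo dh dm ds dz φ ψ z₀ h).1, ← hpt, t4, hcd, hm]
      have hsm : ∀ Z, Z ≠ 0 → (S.rot R hR O hO).V Z = 0 → AD.cd (S.rot R hR O hO) Z < dh →
          AD.Nul Rn (fun n x => u n (rox R.transpose O.transpose x)) Z := by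
        intro Z hZ hVZ hcZ
        obtain ⟨W, rfl⟩ : ∃ W, Z = rox R O W :=
          ⟨rox R.transpose O.transpose Z, (nulb_inv S hR hO Z).symm⟩
        rw [t5] at hVZ
        rw [t4, hdh] at hcZ
        obtain ⟨ε, hε, h1⟩ := IH _ hcZ W ((nulb_ne S hR hO).1 hZ) hVZ rfl
        exact ⟨ε, hε, (t3 W ε).2 h1⟩
      have hfin := hL2 Rn _ hSq' (fun Z hZ => hNC' hfd Rn _ hSq' Z hZ) hsm
        (hSPZ (min ε₀ ε₁) (lt_min hε₀ hε₁) (min_le_right _ _))
      refine ⟨ε₂, hε₂, ?_⟩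
      rw [← hpt] at hfin
      exact (t3 Y' ε₂).1 hfin
  intro Y hY
  by_cases hV : S.V Y = 0
  · exact key _ Y hY hV rfl
  · exact hNC hfd Rn u hSq Y hV

end Vale.Agent.P353.Z.AJ
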