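import Vale.Agent.P353.AN.JN.Stmt
import Vale.Agent.P353.AN.X.VFr
import Vale.Agent.P353.AN.A.Std

/-! # P353, all `N`, block JN: N3, rotated frames at regular points of the stratum -/

open MeasureTheory Filter Topology Matrix
open scoped ContDiff

namespace Vale.Agent.P353.Z.AJ

variable {d dh dm ds dz : ℕ} {F : Type*} [NormedAddCommGroup F] [InnerProductSpace ℂ F]

/-- a matrix as an operator on the Euclidean space -/
private noncomputable def rg_op (D : Matrix (Fin dm) (Fin dm) ℝ) : AN.StdA.Ec dm →ₗ[ℝ] AN.StdA.Ec dm where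
  toFun v := WithLp.toLp 2 fun B => ∑ C, D B C * v C
  map_add' v w := by
    ext B
    simp [mul_add, Finset.sum_add_distrib]
  map_smul' c v := by
    ext B
    simp only [PiLp.smul_apply, smul_eq_mul, RingHom.id_apply, Finset.mul_sum]
    exact Finset.sum_congr rfl fun C _ => by ring

private lemma rg_op_apply (D : Matrix (Fin dm) (Fin dm) ℝ) (v : AN.StdA.Ec dm) (B : Fin dm) :
    rg_op D v B = ∑ C, D B C * v C := rfl

private lemma rg_skew (D : Matrix (Fin dm) (Fin dm) ℝ) (h : Dᵀ = -D) (v w : AN.StdA.Ec dm) :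
    inner ℝ (rg_op D v) w = - inner ℝ v (rg_op D w) := by
  rw [AN.StdA.inner_Ec, AN.StdA.inner_Ec]
  simp only [rg_op_apply, Finset.sum_mul, Finset.mul_sum]
  rw [Finset.sum_comm, ← Finset.sum_neg_distrib]
  refine Finset.sum_congr rfl fun C _ => ?_
  rw [← Finset.sum_neg_distrib]
  refine Finset.sum_congr rfl fun B _ => ?_
  have h1 : D B C = - D C B := by
    have := congrFun (congrFun h C) B
    rwa [Matrix.transpose_apply, Matrix.neg_apply] at this
  rw [h1]
  ring

private lemma rg_add (D E : Matrix (Fin dm) (Fin dm) ℝ) (v : AN.StdA.Ec dm) :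
    rg_op (D + E) v = rg_op D v + rg_op E v := by
  ext B
  simp only [rg_op_apply, PiLp.add_apply, Matrix.add_apply, add_mul, Finset.sum_add_distrib]

private lemma rg_smul (c : ℝ) (D : Matrix (Fin dm) (Fin dm) ℝ) (v : AN.StdA.Ec dm) :
    rg_op (c • D) v = c • rg_op D v := by
  ext B
  simp only [rg_op_apply, PiLp.smul_apply, Matrix.smul_apply, smul_eq_mul, Finset.mul_sum]
  exact Finset.sum_congr rfl fun C _ => by ring

private lemma rg_mul (D E : Matrix (Fin dm) (Fin dm) ℝ) (v : AN.StdA.Ec dm) :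
    rg_op (D * E) v = rg_op D (rg_op E v) := by
  ext B
  simp only [rg_op_apply, Matrix.mul_apply, Finset.sum_mul, Finset.mul_sum]
  rw [Finset.sum_comm]
  exact Finset.sum_congr rfl fun C _ => Finset.sum_congr rfl fun G _ => by ring

private lemma rg_comb (D : Fin 9 → Matrix (Fin dm) (Fin dm) ℝ) (ha : ∀ i, (D i)ᵀ = -D i)
    (hc : ∀ i j, D i * D j = D j * D i) (s : Finset (Fin 9)) :
    ∃ e : Fin 9 → ℝ, ∀ v, rg_op (∑ j, e j • D j) v = 0 → ∀ i ∈ s, rg_op (D i) v = 0 := by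
  induction s using Finset.induction_on with
  | empty => exact ⟨0, fun v _ i hi => by simp at hi⟩
  | insert a s ha' ih =>
    obtain ⟨e, he⟩ := ih
    have hE : (∑ j, e j • D j)ᵀ = -(∑ j, e j • D j) := by
      simp only [Matrix.transpose_sum, Matrix.transpose_smul, ha, smul_neg, Finset.sum_neg_distrib]
    have hEc : (∑ j, e j • D j) * D a = D a * (∑ j, e j • D j) := by
      rw [Finset.sum_mul, Finset.mul_sum]
      exact Finset.sum_congr rfl fun j _ => by rw [smul_mul_assoc, mul_smul_comm, hc]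
    obtain ⟨t, ht⟩ := AN.StdA.exists_ker (rg_op (∑ j, e j • D j)) (rg_op (D a)) (rg_skew _ hE)
      (rg_skew _ (ha a)) (fun v => by rw [← rg_mul, ← rg_mul, hEc])
    refine ⟨e + Pi.single a t, fun v hv => ?_⟩
    have h1 : ∑ j, (e + Pi.single a t : Fin 9 → ℝ) j • D j = (∑ j, e j • D j) + t • D a := by
      simp only [Pi.add_apply, add_smul, Finset.sum_add_distrib]
      congr 1
      rw [Finset.sum_eq_single a]
      · simp
      · intro b _ hb
        simp [hb]
      · simp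
    rw [h1, rg_add, rg_smul] at hv
    obtain ⟨h2, h3⟩ := ht v hv
    intro i hi
    rcases Finset.mem_insert.1 hi with rfl | hi
    · exact h3
    · exact he v h2 i hi

private lemma rg_unit (D : Fin 9 → Matrix (Fin dm) (Fin dm) ℝ) (ha : ∀ i, (D i)ᵀ = -D i)
    (hc : ∀ i j, D i * D j = D j * D i) (hdet : (∑ i, D i * D i).det ≠ 0) :
    ∃ e : EuclideanSpace ℝ (Fin 9), ‖e‖ = 1 ∧ (∑ j, e j • D j).det ≠ 0 := by
  have key : ∃ e : EuclideanSpace ℝ (Fin 9), ‖e‖ = 1 ∧
      ∀ v, rg_op (∑ j, e j • D j) v = 0 → ∀ i, rg_op (D i) v = 0 := by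
    obtain ⟨e, he⟩ := rg_comb D ha hc Finset.univ
    have he' : ∀ v, rg_op (∑ j, e j • D j) v = 0 → ∀ i, rg_op (D i) v = 0 :=
      fun v hv i => he v hv i (Finset.mem_univ i)
    by_cases h0 : e = 0
    · refine ⟨EuclideanSpace.single 0 1, by simp, fun v _ i => he' v ?_ i⟩
      rw [h0]
      ext B
      simp [rg_op_apply]
    · set E : EuclideanSpace ℝ (Fin 9) := WithLp.toLp 2 e with hE
      have hE0 : E ≠ 0 := by
        intro h
        apply h0
        funext i
        have := congrArg (fun z : EuclideanSpace ℝ (Fin 9) => z i) h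
        simpa [hE] using this
      have hn : ‖E‖ ≠ 0 := norm_ne_zero_iff.2 hE0
      refine ⟨‖E‖⁻¹ • E, by rw [norm_smul, norm_inv, norm_norm, inv_mul_cancel₀ hn], fun v hv i => he' v ?_ i⟩
      have h2 : ∑ j, (‖E‖⁻¹ • E) j • D j = ‖E‖⁻¹ • ∑ j, e j • D j := by
        rw [Finset.smul_sum]
        exact Finset.sum_congr rfl fun j _ => by rw [PiLp.smul_apply, smul_eq_mul, mul_smul]
      rw [h2, rg_smul] at hv
      exact (smul_eq_zero.1 hv).resolve_left (inv_ne_zero hn)
  obtain ⟨e, he1, he⟩ := key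
  refine ⟨e, he1, fun hd => ?_⟩
  obtain ⟨z, hz0, hz⟩ := Matrix.exists_mulVec_eq_zero_iff.2 hd
  apply hdet
  have hz' : rg_op (∑ j, e j • D j) (WithLp.toLp 2 z) = 0 := by
    ext B
    exact congrFun hz B
  have h1 : ∀ i, D i *ᵥ z = 0 := by
    intro i
    have h2 := he _ hz' i
    funext B
    exact congrArg (fun w : AN.StdA.Ec dm => w B) h2
  refine Matrix.exists_mulVec_eq_zero_iff.1 ⟨z, hz0, ?_⟩
  rw [Matrix.sum_mulVec]
  refine Finset.sum_eq_zero fun i _ => ?_
  rw [← Matrix.mulVec_mulVec, h1, Matrix.mulVec_zero]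

/-- **N3** rotated frames at regular points of the stratum -/
theorem reg (S : Setup d F) : RegStmt S := by
  intro dh dm ds dz φ ψ z₀ h η₀ hdet h1
  have hA := AX.Mz_anti S φ ψ
  have hC := AX.Mz_comm S φ ψ h.std.sub h.cen
  have hanti : ∀ i, (AD.Dz S φ ψ η₀ i)ᵀ = - AD.Dz S φ ψ η₀ i := by
    intro i
    rw [← AX.DM_Mz]
    simp only [DM, Matrix.transpose_sum, Matrix.transpose_smul, hA, smul_neg, Finset.sum_neg_distrib]
  have hcomm : ∀ i j, AD.Dz S φ ψ η₀ i * AD.Dz S φ ψ η₀ j = AD.Dz S φ ψ η₀ j * AD.Dz S φ ψ η₀ i := by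
    intro i j
    rw [← AX.DM_Mz]
    simp only [DM, Finset.sum_mul_sum, smul_mul_smul_comm]
    rw [Finset.sum_comm]
    refine Finset.sum_congr rfl fun a _ => Finset.sum_congr rfl fun b _ => ?_
    rw [hC, mul_comm]
  obtain ⟨e, he1, hed⟩ := rg_unit _ hanti hcomm hdet
  obtain ⟨R, hR, hR8⟩ := AN.StdA.exists_rot e he1
  refine ⟨R, hR, ⟨⟨?_, ?_, ?_⟩, ?_, ?_⟩⟩
  · intro A B C
    rw [AX.rot_f]
    exact h.std.sub A B C
  · intro i B C
    simp only [AX.rot_f]
    rw [← ψ.sum_comp, Fintype.sum_sum_type]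
    simp [AD.cmb, h.cen]
  · have h2 : (S.rot R hR 1 h1).Dy φ 8 (AD.cmb ψ 0 (rox R 1 η₀)) = ∑ j, e j • AD.Dz S φ ψ η₀ j := by
      have h3 : (S.rot R hR 1 h1).Dy φ 8 (AD.cmb ψ 0 (rox R 1 η₀)) = AD.Dz S φ ψ (rox R 1 η₀) 8 := by
        ext B C
        simp only [AD.Dz, Setup.Dy, Setup.Dm, Matrix.of_apply, AX.rot_f]
      rw [h3, ← AX.DM_Mz, AX.rox_one, AX.DM_rz, AX.DM_Mz]
      exact Finset.sum_congr rfl fun j _ => by rw [hR8]
    rw [h2]
    exact hed
  · intro A B C
    rw [AX.rot_f]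
    exact h.cen A B C
  · intro v hv
    refine h.less v fun B C => ?_
    have h2 := hv B C
    simp only [AX.rot_f] at h2
    exact h2

end Vale.Agent.P353.Z.AJ
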