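import Vale.Agent.P353.AN.JN.StmtC
import Vale.Agent.P353.AN.L.Zero
import Mathlib.Analysis.Normed.Lp.SmoothApprox
import Mathlib.Geometry.Manifold.PartitionOfUnity

/-! # P353, all `N`, block JN, C2: functionals of bundle valued sections tend to zero (helper206) -/

open MeasureTheory Filter Topology Set
open scoped ContDiff Manifold

namespace Vale.Agent.P353.Z.AJ

variable {d dh dm r ds n : ℕ} {F : Type} [NormedAddCommGroup F] [InnerProductSpace ℂ F]

private lemma sz206_n2 {X : Type*} [MeasurableSpace X] {μ : Measure X} {G : Type*} [NormedAddCommGroup G] {f : X → G}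
    (hf : MemLp f 2 μ) {ε : ℝ} (hε : 0 < ε) (h : eLpNorm f 2 μ ≤ ENNReal.ofReal (Real.sqrt ε)) :
    ∫ x, ‖f x‖ ^ 2 ∂μ ≤ ε := by
  have h2 : ∫ x, ‖f x‖ ^ 2 ∂μ = (eLpNorm f 2 μ).toReal ^ 2 := by
    have h3 := hf.eLpNorm_eq_integral_rpow_norm (by norm_num) (by norm_num)
    rw [h3]
    have h4 : 0 ≤ ∫ x, ‖f x‖ ^ (2 : ℝ) ∂μ := integral_nonneg fun x => by positivity
    simp only [ENNReal.toReal_ofNat]
    rw [ENNReal.toReal_ofReal (by positivity), ← Real.rpow_natCast, ← Real.rpow_mul h4]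
    norm_num
  rw [h2]
  have h5 := ENNReal.toReal_mono ENNReal.ofReal_ne_top h
  rw [ENNReal.toReal_ofReal (Real.sqrt_nonneg _)] at h5
  calc _ ≤ Real.sqrt ε ^ 2 := pow_le_pow_left₀ ENNReal.toReal_nonneg h5 2
    _ = ε := Real.sq_sqrt hε.le

/-- smooth cutoffs -/
private lemma sz206_chi {A Ω : Set (Cfg r)} (hA : IsCompact A) (hΩ : IsOpen Ω) (hAΩ : A ⊆ Ω) :
    ∃ (χ : Cfg r → ℝ) (L : Set (Cfg r)), IsCompact L ∧ L ⊆ Ω ∧ ContDiff ℝ ∞ χ ∧ (∀ x, x ∉ L → χ x = 0) ∧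
      (∀ x ∈ A, χ x = 1) ∧ ∀ x, 0 ≤ χ x ∧ χ x ≤ 1 := by
  obtain ⟨L, hL, hKL, hLR⟩ := exists_compact_between hA hΩ hAΩ
  obtain ⟨χ, hχ0, hχ1, hχ⟩ := exists_contMDiffMap_zero_one_of_isClosed (n := ⊤) 𝓘(ℝ, Cfg r)
    (isOpen_interior (s := L)).isClosed_compl hA.isClosed
    (disjoint_left.2 fun x hx hx' => hx (hKL hx'))
  exact ⟨χ, L, hL, hLR, χ.contMDiff.contDiff, fun x hx => hχ0 fun h => hx (interior_subset (s := L) h),
    fun x hx => hχ1 hx, fun x => hχ x⟩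

/-- smooth approximation with support in an open set -/
private lemma sz206_apx0 {G : Type*} [NormedAddCommGroup G] [NormedSpace ℝ G] {c : Cfg r → G}
    (hc : MemLp c 2 (volume : Measure (Cfg r))) {A Ω : Set (Cfg r)}
    (hA : IsCompact A) (hΩ : IsOpen Ω) (hAΩ : A ⊆ Ω) (h0 : ∀ x, x ∉ A → c x = 0) {ε : ℝ} (hε : 0 < ε) :
    ∃ (b : Cfg r → G) (K' : Set (Cfg r)), IsCompact K' ∧ K' ⊆ Ω ∧ ContDiff ℝ ∞ b ∧ tsupport b ⊆ K' ∧
      MemLp b 2 (volume : Measure (Cfg r)) ∧ ∫ x, ‖c x - b x‖ ^ 2 ≤ ε := by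
  obtain ⟨χ, L, hL, hLR, hχs, hχ0, hχ1, hχ⟩ := sz206_chi hA hΩ hAΩ
  obtain ⟨g, hg1, hg2, hg3⟩ := hc.exist_eLpNorm_sub_le (by norm_num) (by norm_num) (Real.sqrt_pos.2 hε)
  have hts : tsupport (fun x => χ x • g x) ⊆ L := by
    refine closure_minimal ?_ hL.isClosed
    intro p hp
    by_contra hpL
    apply hp
    simp [hχ0 p hpL]
  have hsm : ContDiff ℝ ∞ (fun x => χ x • g x) := hχs.smul hg2
  have hcs : HasCompactSupport (fun x => χ x • g x) := hg1.smul_left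
  have hm : MemLp (fun x => χ x • g x) 2 (volume : Measure (Cfg r)) :=
    hsm.continuous.memLp_of_hasCompactSupport hcs
  refine ⟨fun x => χ x • g x, L, hL, hLR, hsm, hts, hm, ?_⟩
  refine sz206_n2 (hc.sub hm) hε ?_
  refine le_trans (eLpNorm_mono (g := c - g) fun q => ?_) hg3
  have h1 : χ q • c q = c q := by
    by_cases h : q ∈ A
    · rw [hχ1 q h, one_smul]
    · rw [h0 q h, smul_zero]
  have h2 : c q - χ q • g q = χ q • (c q - g q) := by rw [smul_sub, h1]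
  show ‖c q - χ q • g q‖ ≤ ‖c q - g q‖
  rw [h2, norm_smul, Real.norm_of_nonneg (hχ q).1]
  exact mul_le_of_le_one_left (norm_nonneg _) (hχ q).2

private lemma sz206_apx {c : Cfg r → AL.Ek n} (hc : MemLp c 2 (volume : Measure (Cfg r))) {A Ω : Set (Cfg r)}
    (hA : IsCompact A) (hΩ : IsOpen Ω) (hAΩ : A ⊆ Ω) (h0 : ∀ x, x ∉ A → c x = 0) {ε : ℝ} (hε : 0 < ε) :
    ∃ (b : Cfg r → AL.Ek n) (K' : Set (Cfg r)), IsCompact K' ∧ K' ⊆ Ω ∧ ContDiff ℝ ∞ b ∧ tsupport b ⊆ K' ∧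
      MemLp b 2 (volume : Measure (Cfg r)) ∧ ∫ x, ‖c x - b x‖ ^ 2 ≤ ε :=
  sz206_apx0 hc hA hΩ hAΩ h0 hε

omit [InnerProductSpace ℂ F] in
private lemma sz206_sq {X : Type*} [MeasurableSpace X] {μ : Measure X} {f g : X → F} (hf : MemLp f 2 μ) (hg : MemLp g 2 μ) :
    ∫ q, ‖f q + g q‖ ^ 2 ∂μ ≤ 2 * (∫ q, ‖f q‖ ^ 2 ∂μ) + 2 * ∫ q, ‖g q‖ ^ 2 ∂μ := by
  have i1 : Integrable (fun q => ‖f q‖ ^ 2) μ := hf.integrable_norm_pow (by norm_num)
  have i2 : Integrable (fun q => ‖g q‖ ^ 2) μ := hg.integrable_norm_pow (by norm_num)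
  rw [← integral_const_mul, ← integral_const_mul, ← integral_add (i1.const_mul 2) (i2.const_mul 2)]
  refine integral_mono_of_nonneg (Eventually.of_forall fun q => sq_nonneg _)
    ((i1.const_mul 2).add (i2.const_mul 2)) (Eventually.of_forall fun q => ?_)
  have h := pow_le_pow_left₀ (norm_nonneg _) (norm_add_le (f q) (g q)) 2
  show ‖f q + g q‖ ^ 2 ≤ 2 * ‖f q‖ ^ 2 + 2 * ‖g q‖ ^ 2
  nlinarith [sq_nonneg (‖f q‖ - ‖g q‖)]

/-- the cutoff sections converge -/
private lemma sz206_cut {L : Finset (Fin r → ℝ)} {η : ℕ → Cfg r → ℝ} (hη : ∀ m, Continuous (η m))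
    (h01 : ∀ m y, 0 ≤ η m y ∧ η m y ≤ 1) (hev : ∀ y, y ∉ Coll L → ∀ᶠ m in atTop, η m y = 1)
    (hae : ∀ᵐ y ∂(volume : Measure (Cfg r)), y ∉ Coll L) {a : Cfg r → Cfg ds → F}
    (ha : MemLp (fun q : Cfg r × Cfg ds => a q.1 q.2) 2 (volume.prod volume)) :
    (∀ m, MemLp (fun q : Cfg r × Cfg ds => ((η m q.1 : ℝ) : ℂ) • a q.1 q.2) 2 (volume.prod volume)) ∧
    Tendsto (fun m => ∫ q : Cfg r × Cfg ds, ‖a q.1 q.2 - ((η m q.1 : ℝ) : ℂ) • a q.1 q.2‖ ^ 2 ∂(volume.prod volume))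
      atTop (𝓝 0) := by
  have hms : ∀ m, AEStronglyMeasurable (fun q : Cfg r × Cfg ds => ((η m q.1 : ℝ) : ℂ) • a q.1 q.2)
      ((volume : Measure (Cfg r)).prod (volume : Measure (Cfg ds))) := fun m =>
    (Complex.continuous_ofReal.comp ((hη m).comp continuous_fst)).aestronglyMeasurable.smul ha.1
  constructor
  · intro m
    refine ha.mono (hms m) (Eventually.of_forall fun q => ?_)
    rw [norm_smul, Complex.norm_real, Real.norm_of_nonneg (h01 m q.1).1]
    exact mul_le_of_le_one_left (norm_nonneg _) (h01 m q.1).2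
  · have hi : Integrable (fun q : Cfg r × Cfg ds => ‖a q.1 q.2‖ ^ 2) (volume.prod volume) :=
      ha.integrable_norm_pow (by norm_num)
    have hlim : ∀ᵐ q : Cfg r × Cfg ds ∂((volume : Measure (Cfg r)).prod (volume : Measure (Cfg ds))),
        Tendsto (fun m => ‖a q.1 q.2 - ((η m q.1 : ℝ) : ℂ) • a q.1 q.2‖ ^ 2) atTop (𝓝 0) := by
      have h1 := (Measure.quasiMeasurePreserving_fst (μ := (volume : Measure (Cfg r)))
        (ν := (volume : Measure (Cfg ds)))).ae hae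
      filter_upwards [h1] with q hq
      refine tendsto_const_nhds.congr' ?_
      filter_upwards [hev q.1 hq] with m hm
      rw [hm]
      simp
    have h := tendsto_integral_of_dominated_convergence (fun q : Cfg r × Cfg ds => ‖a q.1 q.2‖ ^ 2)
      (fun m => ((ha.1.sub (hms m)).norm.pow 2)) hi (fun m => Eventually.of_forall fun q => by
        show ‖‖a q.1 q.2 - ((η m q.1 : ℝ) : ℂ) • a q.1 q.2‖ ^ 2‖ ≤ ‖a q.1 q.2‖ ^ 2
        rw [Real.norm_of_nonneg (sq_nonneg _)]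
        refine pow_le_pow_left₀ (norm_nonneg _) ?_ 2
        have h1 : a q.1 q.2 - ((η m q.1 : ℝ) : ℂ) • a q.1 q.2 = ((1 - η m q.1 : ℝ) : ℂ) • a q.1 q.2 := by
          push_cast
          rw [sub_smul, one_smul]
        rw [h1, norm_smul, Complex.norm_real, Real.norm_of_nonneg (by linarith [(h01 m q.1).2])]
        exact mul_le_of_le_one_left (norm_nonneg _) (by linarith [(h01 m q.1).1])) hlim
    simpa using h

open AL.Zero533 in
/-- **C2** -/
theorem secz_of (S : Setup d F) : SecZOfStmt S := by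
  intro hCoef hUB hLin hI hZML hCut hfin hC dh dm r ds n φ ψ z₀ hstd L Om K U o T hD R u hSq hlim A hA hARg hA0 a ha hzm
  obtain ⟨c, hc2, hc0, hac⟩ := hCoef hfin hZML hCut dh dm r ds n φ ψ L Om K U o T hD A hA hARg a ha hzm
  obtain ⟨s, t, hs, hst, hAs⟩ := shell hA hA0
  obtain ⟨C, hC0, hub⟩ := hUB hfin hC dh dm r ds φ ψ z₀ hstd L Om K U hD.bun
  obtain ⟨M₀, hM₀⟩ := hSq.bd s t hs hst
  obtain ⟨η, hηs, hη01, hηd, hηev, hηae, -⟩ := hCut r L hD.bun.L_ne
  set M : ℝ := max M₀ 0 with hMdef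
  have hM : ∀ m, AD.mas (u m) (AD.shl d (s * R m) (t * R m)) ≤ M := fun m => (hM₀ m).trans (le_max_left _ _)
  set Ω : Set (Cfg r) := AD.shl r s t ∩ (Coll L)ᶜ with hΩdef
  have hΩo : IsOpen Ω := by
    have h1 : IsOpen (AD.shl r s t) :=
      (isOpen_lt continuous_const continuous_norm).inter (isOpen_lt continuous_norm continuous_const)
    exact h1.inter hD.bun.closed.isOpen_compl
  obtain ⟨hcm, hcl⟩ := sz206_cut (L := L) (fun m => (hηs m).continuous) hη01 hηev hηae ha.1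
  -- approximation
  have hmain : ∀ δ : ℝ, 0 < δ → ∃ (b : Cfg r → AL.Ek n) (K' : Set (Cfg r)), IsCompact K' ∧ K' ⊆ Ω ∧
      AD.TOff L b ∧ MemLp b 2 (volume : Measure (Cfg r)) ∧ (∀ x, x ∉ K' → b x = 0) ∧
      AL.n2 (fun η s => a η s - AL.sc U o b η s) ≤ δ := by
    intro δ hδ
    obtain ⟨m, hm⟩ := (hcl.eventually (gt_mem_nhds (show (0 : ℝ) < δ / 4 by positivity))).exists
    have hcomp : IsCompact (A ∩ tsupport (η m)) := hA.inter_right (isClosed_tsupport _)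
    have hsub : A ∩ tsupport (η m) ⊆ Ω := fun x hx =>
      ⟨hAs hx.1, fun h => Set.disjoint_left.1 (hηd m) hx.2 h⟩
    have hc' : MemLp (fun x => ((η m x : ℝ) : ℂ) • c x) 2 (volume : Measure (Cfg r)) := by
      refine hc2.mono ((Complex.continuous_ofReal.comp (hηs m).continuous).aestronglyMeasurable.smul hc2.1)
        (Eventually.of_forall fun q => ?_)
      rw [norm_smul, Complex.norm_real, Real.norm_of_nonneg (hη01 m q).1]
      exact mul_le_of_le_one_left (norm_nonneg _) (hη01 m q).2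
    have hc0' : ∀ x, x ∉ A ∩ tsupport (η m) → ((η m x : ℝ) : ℂ) • c x = 0 := by
      intro x hx
      by_cases h : x ∈ A
      · have h1 : η m x = 0 := by
          by_contra hne
          exact hx ⟨h, subset_tsupport _ hne⟩
        rw [h1, Complex.ofReal_zero, zero_smul]
      · rw [hc0 x h, smul_zero]
    obtain ⟨b, K', hK', hK'Ω, hb1, hb2, hb3, hb4⟩ := sz206_apx hc' hcomp hΩo hsub hc0'
      (show (0 : ℝ) < δ / 4 by positivity)
    have hb0 : ∀ x, x ∉ K' → b x = 0 := fun x hx => image_eq_zero_of_notMem_tsupport fun h => hx (hb2 h)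
    refine ⟨b, K', hK', hK'Ω, ⟨⟨⟨hb1, hK'.of_isClosed_subset (isClosed_tsupport _) hb2⟩, ?_⟩, ?_⟩, hb3, hb0, ?_⟩
    · exact Set.disjoint_left.2 fun x hx h => (hK'Ω (hb2 hx)).2 h
    · intro h
      have h1 := (hK'Ω (hb2 h)).1.1
      rw [norm_zero] at h1
      linarith
    · have hU : (A ∩ tsupport (η m)) ∪ K' ⊆ (Coll L)ᶜ :=
        Set.union_subset (hsub.trans Set.inter_subset_right) (hK'Ω.trans Set.inter_subset_right)
      have hb' : MemLp (fun x => -b x) 2 (volume : Measure (Cfg r)) := hb3.neg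
      obtain ⟨s1, s2⟩ := hI dh dm r ds n φ ψ L Om K U o T hD _ (hcomp.union hK') hU
        (fun x => ((η m x : ℝ) : ℂ) • c x + -b x) (hc'.add hb') (fun x hx => by
          rw [hc0' x fun h => hx (Or.inl h), hb0 x fun h => hx (Or.inr h)]
          simp)
      have e1 : (fun q : Cfg r × Cfg ds => ((η m q.1 : ℝ) : ℂ) • a q.1 q.2 - AL.sc U o b q.1 q.2)
          =ᵐ[(volume : Measure (Cfg r)).prod (volume : Measure (Cfg ds))]
          fun q => AL.sc U o (fun x => ((η m x : ℝ) : ℂ) • c x + -b x) q.1 q.2 := by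
        filter_upwards [hac] with q hq
        rw [hq]
        simp only [AL.sc, PiLp.add_apply, PiLp.smul_apply, PiLp.neg_apply, smul_eq_mul, add_smul, neg_smul,
          Finset.sum_add_distrib, Finset.sum_neg_distrib, Finset.smul_sum, smul_smul, sub_eq_add_neg]
      have m1 : MemLp (fun q : Cfg r × Cfg ds => ((η m q.1 : ℝ) : ℂ) • a q.1 q.2 - AL.sc U o b q.1 q.2) 2
          (volume.prod volume) := (memLp_congr_ae e1).2 s1.1
      have n1 : ∫ q : Cfg r × Cfg ds, ‖((η m q.1 : ℝ) : ℂ) • a q.1 q.2 - AL.sc U o b q.1 q.2‖ ^ 2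
          ∂(volume.prod volume) ≤ δ / 4 := by
        have h1 : ∫ q : Cfg r × Cfg ds, ‖((η m q.1 : ℝ) : ℂ) • a q.1 q.2 - AL.sc U o b q.1 q.2‖ ^ 2
          ∂(volume.prod volume) = AL.n2 (AL.sc U o (fun x => ((η m x : ℝ) : ℂ) • c x + -b x)) := by
          unfold AL.n2
          refine integral_congr_ae ?_
          filter_upwards [e1] with q hq
          rw [hq]
        rw [h1, s2]
        refine le_trans (le_of_eq ?_) hb4
        simp only [sub_eq_add_neg]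
      have m2 : MemLp (fun q : Cfg r × Cfg ds => a q.1 q.2 - ((η m q.1 : ℝ) : ℂ) • a q.1 q.2) 2
          (volume.prod volume) := ha.1.sub (hcm m)
      have h3 := sz206_sq m2 m1
      have h4 : AL.n2 (fun η s => a η s - AL.sc U o b η s) = ∫ q : Cfg r × Cfg ds,
          ‖(a q.1 q.2 - ((η m q.1 : ℝ) : ℂ) • a q.1 q.2) +
            (((η m q.1 : ℝ) : ℂ) • a q.1 q.2 - AL.sc U o b q.1 q.2)‖ ^ 2 ∂(volume.prod volume) := by
        unfold AL.n2
        simp only [sub_add_sub_cancel]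
      rw [h4]
      linarith
  rw [Metric.tendsto_nhds]
  intro e he
  have hq : 0 < C * Real.sqrt M + 1 := by positivity
  obtain ⟨b, K', hK', hK'Ω, hbT, hb2, hb0, hbn⟩ := hmain ((e / (4 * (C * Real.sqrt M + 1))) ^ 2) (by positivity)
  have hcU : IsCompact (A ∪ K') := hA.union hK'
  have hUs : A ∪ K' ⊆ AD.shl r s t := Set.union_subset hAs (hK'Ω.trans Set.inter_subset_left)
  have hK'c : K' ⊆ (Coll L)ᶜ := hK'Ω.trans Set.inter_subset_right
  have hUR : A ∪ K' ⊆ AL.Rg S φ ψ := Set.union_subset hARg (hK'c.trans (rg hD.bun))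
  obtain ⟨t1, -⟩ := hI dh dm r ds n φ ψ L Om K U o T hD K' hK' hK'c b hb2 hb0
  have sb : AL.Sec2 (A ∪ K') (AL.sc U o b) := ⟨t1.1, fun η s h => Or.inr (t1.2 η s h)⟩
  have sx : AL.Sec2 (A ∪ K') (fun η s => a η s - AL.sc U o b η s) := by
    refine ⟨ha.1.sub t1.1, fun η s h => ?_⟩
    by_contra hn
    apply h
    have h1 : a η s = 0 := by
      by_contra hne
      exact hn (Or.inl (ha.2 η s hne))
    have h2 : AL.sc U o b η s = 0 := by
      by_contra hne
      exact hn (Or.inr (t1.2 η s hne))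
    show a η s - AL.sc U o b η s = 0
    rw [h1, h2, sub_zero]
  have hub' := hub s t hs hst (A ∪ K') hcU hUs hUR R u hSq _ sx (e / 4) (by positivity)
  have hl := (Metric.tendsto_nhds.1 (hlim b hbT)) (e / 4) (by positivity)
  filter_upwards [hub', hl] with m h1 h2
  rw [dist_zero_right] at h2 ⊢
  have hadd := (hLin hfin dh dm r ds φ ψ L Om K U hD.bun (A ∪ K') hcU hUR (R m) (hSq.pos m) (u m)
    (hSq.inv m).1).2.1 _ _ sx sb
  simp only [sub_add_cancel] at hadd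
  rw [hadd]
  have h3 : C * Real.sqrt (AL.n2 fun η s => a η s - AL.sc U o b η s) *
      Real.sqrt (AD.mas (u m) (AD.shl d (s * R m) (t * R m))) ≤ e / 4 := by
    have h4 : Real.sqrt (AL.n2 fun η s => a η s - AL.sc U o b η s) ≤ e / (4 * (C * Real.sqrt M + 1)) := by
      have h5 := Real.sqrt_le_sqrt hbn
      rwa [Real.sqrt_sq (by positivity)] at h5
    have h6 : Real.sqrt (AD.mas (u m) (AD.shl d (s * R m) (t * R m))) ≤ Real.sqrt M := Real.sqrt_le_sqrt (hM m)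
    calc _ ≤ C * (e / (4 * (C * Real.sqrt M + 1))) * Real.sqrt M :=
          mul_le_mul (mul_le_mul_of_nonneg_left h4 hC0.le) h6 (Real.sqrt_nonneg _) (by positivity)
      _ = e / 4 * (C * Real.sqrt M / (C * Real.sqrt M + 1)) := by
          field_simp
      _ ≤ e / 4 * 1 := by
          refine mul_le_mul_of_nonneg_left ?_ (by positivity)
          rw [div_le_one hq]
          linarith
      _ = e / 4 := mul_one _
  calc _ ≤ ‖AL.ZZ S.κ φ ψ Om (fun η s => a η s - AL.sc U o b η s) (R m) (u m)‖ +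
        ‖AL.ZZ S.κ φ ψ Om (AL.sc U o b) (R m) (u m)‖ := norm_add_le _ _
    _ ≤ (e / 4 + e / 4) + ‖AL.ZZ S.κ φ ψ Om (AL.sc U o b) (R m) (u m)‖ := by
        refine add_le_add (h1.trans ?_) le_rfl
        linarith
    _ < e := by linarith

end Vale.Agent.P353.Z.AJ
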