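import Vale.Agent.P353.AN.JN.StmtC
import Vale.Agent.P353.AN.X.VecSp
import Vale.Agent.P353.AN.A.Rot

/-! # P353, all `N`, block JN, C4: transfer of the vanishing of the functionals to a rotated frame -/

open MeasureTheory Filter Topology Matrix
open scoped ContDiff

namespace Vale.Agent.P353.Z.AJ

variable {d dh dm r ds n : ℕ} {F : Type} [NormedAddCommGroup F] [InnerProductSpace ℂ F]

theorem trf264_inv {Q : Matrix (Fin 9) (Fin 9) ℝ} (hQ : Q * Q.transpose = 1) (y : Cfg r) :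
    rox Q 1 (rox Q.transpose 1 y) = y := by
  rw [AX.rox_one, AX.rox_one, AX.rz_rz hQ]

theorem trf264_inv' {Q : Matrix (Fin 9) (Fin 9) ℝ} (hQ : Q * Q.transpose = 1) (y : Cfg r) :
    rox Q.transpose 1 (rox Q 1 y) = y := by
  have hQT : Q.transpose * Q.transpose.transpose = 1 := by
    rw [Matrix.transpose_transpose]
    exact mul_eq_one_comm.1 hQ
  have h := trf264_inv hQT y
  rwa [Matrix.transpose_transpose] at h

theorem trf264_zero (Q : Matrix (Fin 9) (Fin 9) ℝ) : rox Q 1 (0 : Cfg r) = 0 := by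
  rw [AX.rox_one, ← AX.rzL_apply, map_zero]

/-- the functional sees `Om` on the support of the section only -/
theorem trf264_congr (κ : ℝ) (φ : Spl dh dm d) (ψ : Spl r ds dh)
    (Om Om₁ : Cfg r → Matrix (Fin dm) (Fin dm) ℝ) (a : Cfg r → Cfg ds → F) (R : ℝ) (u : Cfg d → F)
    (h : ∀ η s, a η s ≠ 0 → Om₁ η = Om η) :
    AL.ZZ κ φ ψ Om₁ a R u = AL.ZZ κ φ ψ Om a R u := by
  have hb : AN.bG (dm := dm) κ Om₁ a = AN.bG κ Om a := by
    funext q
    by_cases h0 : a q.1 q.2.1 = 0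
    · rw [AN.bG, AN.bG, h0, smul_zero, smul_zero]
    · rw [AN.bG, AN.bG, h _ _ h0]
  unfold AL.ZZ
  rw [hb]

theorem trf264_sq {R : Matrix (Fin 9) (Fin 9) ℝ} (hR : R * Rᵀ = 1)
    (D : Fin 9 → Matrix (Fin dm) (Fin dm) ℝ) :
    ∑ i, (∑ j, R i j • D j) * (∑ j, R i j • D j) = ∑ i, D i * D i := by
  have horth : ∀ k j, ∑ i, R i k * R i j = if k = j then 1 else 0 := by
    intro k j
    have hR' : Rᵀ * R = 1 := mul_eq_one_comm.1 hR
    have h := congrFun (congrFun hR' k) j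
    rw [Matrix.mul_apply, Matrix.one_apply] at h
    simpa [Matrix.transpose_apply] using h
  have h1 : ∀ i, (∑ j, R i j • D j) * (∑ j, R i j • D j) =
      ∑ k, ∑ j, (R i k * R i j) • (D k * D j) := by
    intro i
    rw [Finset.sum_mul_sum]
    refine Finset.sum_congr rfl fun k _ => Finset.sum_congr rfl fun j _ => ?_
    rw [smul_mul_smul_comm]
  simp only [h1]
  rw [Finset.sum_comm]
  refine Finset.sum_congr rfl fun k _ => ?_
  rw [Finset.sum_comm]
  simp only [← Finset.sum_smul, horth, ite_smul, one_smul, zero_smul, Finset.sum_ite_eq,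
    Finset.mem_univ, if_true]

theorem trf264_Mz (S : Setup d F) (φ : Spl dh dm d) (ψ : Spl r ds dh) (Q : Matrix (Fin 9) (Fin 9) ℝ)
    (hQ : Q * Q.transpose = 1) (h1 : (1 : Matrix (Fin d) (Fin d) ℝ) * (1 : Matrix (Fin d) (Fin d) ℝ).transpose = 1) :
    AX.Mz (S.rot Q hQ 1 h1) φ (spsw ψ) = AX.Mz S φ (spsw ψ) := by
  funext a
  ext B C
  simp only [AX.Mz, Matrix.of_apply, AX.rot_f]

/-- regular points are frame independent -/
theorem trf264_reg (S : Setup d F) (φ : Spl dh dm d) (ψ : Spl r ds dh) {Q : Matrix (Fin 9) (Fin 9) ℝ}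
    (hQ : Q * Q.transpose = 1) (η : Cfg r) :
    (∑ i, DM (AX.Mz S φ (spsw ψ)) (rox Q 1 η) i * DM (AX.Mz S φ (spsw ψ)) (rox Q 1 η) i) =
      ∑ i, S.Dz φ ψ η i * S.Dz φ ψ η i := by
  simp only [AX.rox_one, AX.DM_rz]
  rw [trf264_sq hQ, AX.DM_Dz]

/-- uniqueness of the frequency matrix in the two frames -/
theorem trf264_om (S : Setup d F) (φ : Spl dh dm d) (ψ : Spl r ds dh) {Q : Matrix (Fin 9) (Fin 9) ℝ}
    (hQ : Q * Q.transpose = 1) (h1 : (1 : Matrix (Fin d) (Fin d) ℝ) * (1 : Matrix (Fin d) (Fin d) ℝ).transpose = 1)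
    {L L' : Finset (Fin r → ℝ)} {Om Om' : Cfg r → Matrix (Fin dm) (Fin dm) ℝ} {K K' : Submodule ℂ F}
    {U U' : Cfg r → F →L[ℂ] F} (hB : AX.Bun S φ (AX.Mz S φ (spsw ψ)) L Om K U)
    (hB' : AX.Bun (S.rot Q hQ 1 h1) φ (AX.Mz (S.rot Q hQ 1 h1) φ (spsw ψ)) L' Om' K' U')
    (η : Cfg r) (hη : η ∈ AL.Rg S φ ψ) : Om' (rox Q 1 η) = Om η := by
  have hη' : (∑ i, S.Dz φ ψ η i * S.Dz φ ψ η i).det ≠ 0 := hη
  rw [trf264_Mz] at hB'
  have e1 : (∑ i, DM (AX.Mz S φ (spsw ψ)) (rox Q 1 η) i * DM (AX.Mz S φ (spsw ψ)) (rox Q 1 η) i).det ≠ 0 := by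
    rw [trf264_reg S φ ψ hQ]
    exact hη'
  have e2 := hB'.om _ e1
  have e3 : DM (AX.Mz S φ (spsw ψ)) (rox Q 1 η) = fun i => ∑ j, Q i j • DM (AX.Mz S φ (spsw ψ)) η j := by
    funext i
    rw [AX.rox_one, AX.DM_rz]
  rw [e3] at e2
  have e4 := ((AX.covF0 S φ Q hQ h1 (DM (AX.Mz S φ (spsw ψ)) η) (Om' (rox Q 1 η))).2.2).2 e2
  have e5 : IsOm S.κ (DM (AX.Mz S φ (spsw ψ)) η) (Om η) := by
    refine hB.om _ ?_
    rw [AX.DM_Dz]
    exact hη'
  exact AX.omU dm S.κ _ _ _ S.κ_pos e4 e5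

/-- finite sums of zero modes -/
theorem trf264_sum {e : ℕ} {T : Setup e F} (hZ : AL.ZMLStmt T) (o₀ : Cfg e → F) (h₀ : AD.ZM T o₀)
    (f : Fin n → Cfg e → F) (hf : ∀ j, AD.ZM T (f j)) (s : Finset (Fin n)) :
    AD.ZM T (fun x => ∑ j ∈ s, f j x) := by
  classical
  induction s using Finset.induction_on with
  | empty =>
    have h := hZ.2.1 0 o₀ h₀
    simp only [zero_smul] at h
    simpa only [Finset.sum_empty] using h
  | insert a s ha ih =>
    have h := hZ.1 _ _ (hf a) ih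
    simpa only [Finset.sum_insert ha] using h

/-- **C4** -/
theorem trf_of (S : Setup d F) : TrfOfStmt S := by
  intro hcov hzr hsec hiso hzml hfd hcl Q hQ h1 dh dm r ds n n' φ ψ z₀ hstd L Om K U o T hD L' Om' K' U' o' T'
    hD' R u hu hz b' hb'
  obtain ⟨hb2, A', hA'c, hA's, hA'0⟩ := hb'
  have hQT : Q.transpose * Q.transpose.transpose = 1 := by
    rw [Matrix.transpose_transpose]
    exact mul_eq_one_comm.1 hQ
  have hB' := hD'.bun
  set a : Cfg r → Cfg ds → F := fun η s => AL.sc U' o' b' (rox Q 1 η) (rox Q 1 s) with ha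
  -- the case of no zero modes
  rcases Nat.eq_zero_or_pos n' with hn | hn
  · subst hn
    have h0 : ∀ k, AL.ZZ S.κ φ ψ Om' (AL.sc U' o' b') (R k) (rotu Q 1 (u k)) = 0 := by
      intro k
      unfold AL.ZZ AN.Zb AN.bG AL.sc
      simp
    simp only [h0]
    exact tendsto_const_nhds
  -- section
  have hS2 := (hiso (S.rot Q hQ 1 h1) dh dm r ds n' φ ψ L' Om' K' U' o' T' hD' A' hA'c
    (fun x hx hx' => hA's hx (Or.inl hx')) b' hb2 hA'0).1
  have hS2a : AL.Sec2 (rox Q.transpose 1 '' A') a := by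
    have h := ((hcov Q.transpose hQT).2.1 r ds A' _ hS2).1
    rwa [Matrix.transpose_transpose] at h
  have hsupp : ∀ η s, a η s ≠ 0 → η ∈ rox Q.transpose 1 '' A' := hS2a.2
  -- regular points
  have hcollA : ∀ η' ∈ A', η' ∉ Coll L' := fun x hx hx' => hA's hx (Or.inl hx')
  have hreg : rox Q.transpose 1 '' A' ⊆ AL.Rg S φ ψ := by
    rintro _ ⟨η', hη', rfl⟩
    have h := hB'.det η' (hcollA η' hη')
    rw [trf264_Mz] at h
    have h2 := trf264_reg S φ ψ hQ (rox Q.transpose 1 η')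
    rw [trf264_inv hQ] at h2
    change (∑ i, S.Dz φ ψ (rox Q.transpose 1 η') i * S.Dz φ ψ (rox Q.transpose 1 η') i).det ≠ 0
    rw [← h2]
    exact h
  have h0A : (0 : Cfg r) ∉ rox Q.transpose 1 '' A' := by
    rintro ⟨η', hη', h⟩
    have h2 : η' = 0 := by
      rw [← trf264_inv hQ η', h, trf264_zero]
    exact hA's hη' (Or.inr h2)
  have hcomp : IsCompact (rox Q.transpose 1 '' A') := by
    have hc : Continuous (rox Q.transpose 1 : Cfg r → Cfg r) := by
      have h : (rox Q.transpose 1 : Cfg r → Cfg r) = AX.rzL r Q.transpose := by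
        funext y
        rw [AX.rox_one, AX.rzL_apply]
      rw [h]
      exact (AX.rzL r Q.transpose).continuous
    exact hA'c.image hc
  -- the functional
  have hkey : ∀ k, AL.ZZ S.κ φ ψ Om' (AL.sc U' o' b') (R k) (rotu Q 1 (u k)) =
      AL.ZZ S.κ φ ψ Om a (R k) (u k) := by
    intro k
    have h := (hcov Q hQ).1 d dh dm r ds φ ψ S.κ (fun η => Om' (rox Q 1 η)) a (R k) (u k)
    simp only [ha, trf264_inv hQ] at h
    rw [← h]
    exact trf264_congr S.κ φ ψ Om _ _ (R k) (u k) fun η s hη =>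
      trf264_om S φ ψ hQ h1 hD.bun hB' η (hreg (hsupp η s hη))
  simp only [hkey]
  refine hsec hfd hcl dh dm r ds n φ ψ z₀ hstd L Om K U o T hD R u hu hz _ hcomp hreg h0A a hS2a ?_
  refine Eventually.of_forall fun η => ⟨?_, ?_⟩
  · -- zero modes
    have h2 : (1 : Matrix (Fin ds) (Fin ds) ℝ) * (1 : Matrix (Fin ds) (Fin ds) ℝ).transpose = 1 := by
      rw [Matrix.transpose_one, Matrix.mul_one]
    have hzo : ∀ j, AD.ZM (S.int φ ψ hD.sub hD.cen) (fun s => o' j (rox Q 1 s)) := by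
      intro j
      have h3 := hD'.zm j
      rw [(hzr Q hQ).1 d dh dm r ds S h1 h2 φ ψ hD.sub hD.cen hD'.sub hD'.cen] at h3
      exact (hzr Q hQ).2 ds _ h2 _ h3
    have hzj : ∀ j, AD.ZM (S.int φ ψ hD.sub hD.cen)
        (fun s => b' (rox Q 1 η) j • U' (rox Q 1 η) (o' j (rox Q 1 s))) := by
      intro j
      refine (hzml ds _).2.1 _ _ ((hzml ds _).2.2.2.2 (U' (rox Q 1 η)) (Or.inl fun α B => ?_) _ (hzo j))
      have h4 := hB'.U_comm (rox Q 1 η) α (ψ (Sum.inr B))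
      rw [(AX.covF0 S φ Q hQ h1 (fun _ => 0) 0).1] at h4
      exact h4
    exact trf264_sum (hzml ds _) _ (hzo ⟨0, hn⟩) _ hzj Finset.univ
  · -- values
    by_cases hη : rox Q 1 η ∈ A'
    · have hηR : η ∈ AL.Rg S φ ψ := hreg ⟨rox Q 1 η, hη, trf264_inv' hQ η⟩
      have hmp : MeasurePreserving (rox Q 1 : Cfg ds → Cfg ds) volume volume :=
        AN.rt_mp hQ (by rw [Matrix.transpose_one, Matrix.mul_one])
      have hv : ∀ᵐ s ∂(volume : Measure (Cfg ds)), ∀ j, o' j (rox Q 1 s) ∈ K' := by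
        rw [ae_all_iff]
        intro j
        exact hmp.quasiMeasurePreserving.ae (hD'.val j)
      filter_upwards [hv] with s hs
      refine Submodule.sum_mem _ fun j _ => Submodule.smul_mem _ _ ?_
      have h5 := (hB'.U_mem _ (hcollA _ hη) (o' j (rox Q 1 s))).1 (hs j)
      rw [trf264_Mz] at h5
      have e3 : DM (AX.Mz S φ (spsw ψ)) (rox Q 1 η) = fun i => ∑ j, Q i j • DM (AX.Mz S φ (spsw ψ)) η j := by
        funext i
        rw [AX.rox_one, AX.DM_rz]
      rw [e3, (AX.covF0 S φ Q hQ h1 (DM (AX.Mz S φ (spsw ψ)) η) (Om' (rox Q 1 η))).2.1, AX.DM_Dz,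
        trf264_om S φ ψ hQ h1 hD.bun hB' η hηR] at h5
      exact h5
    · refine Eventually.of_forall fun s => ?_
      have h6 : a η s = 0 := by
        simp only [ha, AL.sc, hA'0 _ hη]
        simp
      rw [h6]
      exact Submodule.zero_mem _

end Vale.Agent.P353.Z.AJ
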