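import Vale.Agent.P353.AN.JN.StmtD

/-! # P353, all `N`, block JN, C8 (helper442): the slice functionals at a regular point of a stratum -/

open MeasureTheory Filter Topology Matrix
open scoped ContDiff

namespace Vale.Agent.P353.Z.AJ

variable {d : ℕ} {F : Type} [NormedAddCommGroup F] [InnerProductSpace ℂ F]

omit [NormedAddCommGroup F] [InnerProductSpace ℂ F] in
private lemma typT442_tr (O : Matrix (Fin d) (Fin d) ℝ) (u : Cfg d → F) : AJK.tr O u = rotu 1 O u := by
  funext x
  simp only [AJK.tr, rotu, Matrix.transpose_one]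

/-- **C8** all slice functionals at a regular point of the stratum `i` vanish if the functionals of type `i` do -/
theorem typT (S : Setup d F) : TypTStmt S := by
  intro hfin hSpz hIC hRot hIso hLin hZ hUB ι ty hC i Y η hη hReg hY R u hSq h
  refine hSpz hfin hC hIC AJK.h91 (ty i).O (ty i).hO (ty i).dh (ty i).dm (ty i).r (ty i).ds (ty i).n (ty i).φ (ty i).ψ
    (ty i).z₀ (ty i).std (ty i).L (ty i).Om (ty i).K (ty i).U (ty i).o (ty i).T (ty i).dat R u hSq (fun b hb => ?_)
    Y η hη hReg hY
  have h1 : Tendsto (fun k => ipr (AJK.ZT (ty i) (R k) (AJK.cl b hb.1)) (u k)) atTop (𝓝 0) := h (AJK.cl b hb.1)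
  refine h1.congr fun k => ?_
  rw [AJK.ipr_ZT (ty i) hRot (R k) (AJK.cl b hb.1) (u k), AJK.rp_cl, typT442_tr]

end Vale.Agent.P353.Z.AJ
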