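import Vale.Agent.P353.AN.JN.StmtC
import Vale.Agent.P353.AN.A.Rot

/-! # P353, all `N`, block JN: C3, zero modes and the internal setup in a rotated frame -/

open MeasureTheory Filter Topology
open scoped ContDiff

namespace Vale.Agent.P353.Z.AJ

variable {d dh dm r ds : ℕ} {F : Type} [NormedAddCommGroup F] [InnerProductSpace ℂ F]

private lemma zmr686_ext {S T : Setup d F} (hg : S.g = T.g) (hth : S.th = T.th) (hκ : S.κ = T.κ)
    (hf : S.f = T.f) : S = T := by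
  obtain ⟨⟨g, g1, g2, th, th1⟩, κ, k1, f, f1, f2, f3, f4, f5⟩ := S
  obtain ⟨⟨g', g1', g2', th', th1'⟩, κ', k1', f', f1', f2', f3', f4', f5'⟩ := T
  simp only at hg hth hκ hf
  subst hg hth hκ hf
  rfl

private lemma zmr686_one_smul {n : ℕ} {M : Type*} [AddCommMonoid M] [Module ℂ M] (i : Fin n)
    (v : Fin n → M) :
    ∑ k, (((1 : Matrix (Fin n) (Fin n) ℝ) i k : ℝ) : ℂ) • v k = v i := by
  have h2 : ∀ k, (((1 : Matrix (Fin n) (Fin n) ℝ) i k : ℝ) : ℂ) • v k =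
      if i = k then v k else 0 := by
    intro k
    rw [Matrix.one_apply]
    split_ifs <;> simp
  simp only [h2, Finset.sum_ite_eq, Finset.mem_univ, if_true]

private lemma zmr686_f (S : Setup d F) (Q : Matrix (Fin 9) (Fin 9) ℝ) (hQ : Q * Q.transpose = 1)
    (h1 : (1 : Matrix (Fin d) (Fin d) ℝ) * (1 : Matrix (Fin d) (Fin d) ℝ).transpose = 1)
    (A B C : Fin d) : (S.rot Q hQ 1 h1).f A B C = S.f A B C := by
  show ∑ A', ∑ B', ∑ C', (1 : Matrix (Fin d) (Fin d) ℝ) A A' *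
    (1 : Matrix (Fin d) (Fin d) ℝ) B B' * (1 : Matrix (Fin d) (Fin d) ℝ) C C' * S.f A' B' C' =
      S.f A B C
  simp [Matrix.one_apply]

private lemma zmr686_th (S : Setup d F) (Q : Matrix (Fin 9) (Fin 9) ℝ) (hQ : Q * Q.transpose = 1)
    (h1 : (1 : Matrix (Fin d) (Fin d) ℝ) * (1 : Matrix (Fin d) (Fin d) ℝ).transpose = 1)
    (α : Fin 16) (A : Fin d) : (S.rot Q hQ 1 h1).th α A = S.th α A :=
  zmr686_one_smul A fun B => S.th α B

private lemma zmr686_int (Q : Matrix (Fin 9) (Fin 9) ℝ) (hQ : Q * Q.transpose = 1) (S : Setup d F)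
    (h1 : (1 : Matrix (Fin d) (Fin d) ℝ) * (1 : Matrix (Fin d) (Fin d) ℝ).transpose = 1)
    (h2 : (1 : Matrix (Fin ds) (Fin ds) ℝ) * (1 : Matrix (Fin ds) (Fin ds) ℝ).transpose = 1)
    (φ : Spl dh dm d) (ψ : Spl r ds dh)
    (hs : S.IsSub φ) (hc : S.IsCen φ ψ) (hs' : (S.rot Q hQ 1 h1).IsSub φ)
    (hc' : (S.rot Q hQ 1 h1).IsCen φ ψ) :
    (S.rot Q hQ 1 h1).int φ ψ hs' hc' = (S.int φ ψ hs hc).rot Q hQ 1 h2 := by
  apply zmr686_ext
  · rfl
  · funext α A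
    refine Eq.trans ?_ (zmr686_th (S.int φ ψ hs hc) Q hQ h2 α A).symm
    exact zmr686_th S Q hQ h1 α (φ (Sum.inl (spsw ψ (Sum.inl A))))
  · rfl
  · funext A B C
    refine Eq.trans ?_ (zmr686_f (S.int φ ψ hs hc) Q hQ h2 A B C).symm
    exact zmr686_f S Q hQ h1 (φ (Sum.inl (spsw ψ (Sum.inl A))))
      (φ (Sum.inl (spsw ψ (Sum.inl B)))) (φ (Sum.inl (spsw ψ (Sum.inl C))))

omit [InnerProductSpace ℂ F] in
private lemma zmr686_nsq (Q : Matrix (Fin 9) (Fin 9) ℝ) (hQ : Q * Q.transpose = 1)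
    (h1 : (1 : Matrix (Fin d) (Fin d) ℝ) * (1 : Matrix (Fin d) (Fin d) ℝ).transpose = 1)
    (u : Cfg d → F) : nsq (fun x => u (rox Q 1 x)) = nsq u := by
  unfold nsq
  have he : MeasurableEmbedding (rox Q 1 : Cfg d → Cfg d) :=
    (AN.rtE Q hQ 1 h1).toHomeomorph.measurableEmbedding
  exact (AN.rt_mp hQ h1).integral_comp he (fun x => ‖u x‖ ^ 2)

private lemma zmr686_GInv (S : Setup d F) (Q : Matrix (Fin 9) (Fin 9) ℝ)
    (hQ : Q * Q.transpose = 1)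
    (h1 : (1 : Matrix (Fin d) (Fin d) ℝ) * (1 : Matrix (Fin d) (Fin d) ℝ).transpose = 1)
    {u : Cfg d → F} (hu : AD.GInv (S.rot Q hQ 1 h1) u) : AD.GInv S (fun x => u (rox Q 1 x)) := by
  refine ⟨⟨hu.1.1.comp (AN.rtE Q hQ 1 h1).contDiff,
    hu.1.2.comp_homeomorph (AN.rtE Q hQ 1 h1).toHomeomorph⟩, fun C x => ?_⟩
  have h3 := AN.rt_G S hQ h1 u (hu.1.1.differentiable (by simp)) C x
  rw [hu.2, zmr686_one_smul C fun C' => S.G C' (fun z => u (rox Q 1 z)) x] at h3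
  exact h3.symm

private lemma zmr686_En (S : Setup d F) (Q : Matrix (Fin 9) (Fin 9) ℝ)
    (hQ : Q * Q.transpose = 1)
    (h1 : (1 : Matrix (Fin d) (Fin d) ℝ) * (1 : Matrix (Fin d) (Fin d) ℝ).transpose = 1)
    {u : Cfg d → F} (hu : Setup.Tst u) :
    AD.En S (fun x => u (rox Q 1 x)) = AD.En (S.rot Q hQ 1 h1) u := by
  unfold AD.En
  refine Finset.sum_congr rfl fun β _ => ?_
  rw [← zmr686_nsq Q hQ h1 ((S.rot Q hQ 1 h1).Q β u)]
  congr 1
  funext x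
  exact (AN.rt_Q S hQ h1 u (hu.1.differentiable (by simp)) β x).symm

private lemma zmr686_L2t (Q : Matrix (Fin 9) (Fin 9) ℝ) (hQ : Q * Q.transpose = 1)
    (h1 : (1 : Matrix (Fin d) (Fin d) ℝ) * (1 : Matrix (Fin d) (Fin d) ℝ).transpose = 1)
    {u : ℕ → Cfg d → F} {o : Cfg d → F} (h : L2t u o) :
    L2t (fun n x => u n (rox Q 1 x)) (fun x => o (rox Q 1 x)) where
  mem n := (h.mem n).comp_measurePreserving (AN.rt_mp hQ h1)
  mem' := h.mem'.comp_measurePreserving (AN.rt_mp hQ h1)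
  lim := by
    have h2 : ∀ n, nsq (fun x => u n (rox Q 1 x) - o (rox Q 1 x)) = nsq (fun x => u n x - o x) :=
      fun n => zmr686_nsq Q hQ h1 fun x => u n x - o x
    simpa only [h2] using h.lim

/-- **C3** -/
theorem zmrot (F : Type) [NormedAddCommGroup F] [InnerProductSpace ℂ F] : ZmRotStmt F := by
  intro Q hQ
  refine ⟨fun d dh dm r ds S h1 h2 φ ψ hs hc hs' hc' => zmr686_int Q hQ S h1 h2 φ ψ hs hc hs' hc',
    fun e T h1 o ho => ?_⟩
  obtain ⟨u, hu, hL, hE⟩ := ho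
  refine ⟨fun n x => u n (rox Q 1 x), fun n => zmr686_GInv T Q hQ h1 (hu n), ?_, ?_⟩
  · exact zmr686_L2t Q hQ h1 hL
  · simp only [zmr686_En T Q hQ h1 (hu _).1]
    exact hE

end Vale.Agent.P353.Z.AJ
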