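import Vale.Agent.P353.AN.D.All
import Vale.Agent.P353.AN.L.All
import Vale.Agent.P353.AN.TW.All
import Vale.Agent.P353.AN.TW.Bd
import Vale.Agent.P353.AN.F.Cut
import Vale.Agent.P353.AN.JN.ActC
import Vale.Agent.P353.AN.JN.Coef
import Vale.Agent.P353.AN.JN.Comp
import Vale.Agent.P353.AN.JN.Nl
import Vale.Agent.P353.AN.JN.NoLoss
import Vale.Agent.P353.AN.JN.NoLossT
import Vale.Agent.P353.AN.JN.NulB
import Vale.Agent.P353.AN.JN.Reg
import Vale.Agent.P353.AN.JN.SecZ
import Vale.Agent.P353.AN.JN.SpzOne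
import Vale.Agent.P353.AN.JN.Trf
import Vale.Agent.P353.AN.JN.TypT
import Vale.Agent.P353.AN.JN.ZmRot
import Vale.Agent.P353.AN.MB.Piece
import Vale.Agent.P353.AN.REP.Core

/-! # P353, all `N`, block JN: no loss, assembly

The local theorem `LocStmt` and inner completeness `ICStmt` (block D) are hypotheses. -/

open MeasureTheory Filter Topology Matrix
open scoped ContDiff

namespace Vale.Agent.P353.Z.AJ

variable {N d : ℕ} {F : Type} [NormedAddCommGroup F] [InnerProductSpace ℂ F]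

/-- bundle sections (C2) for every setup -/
theorem seczAll (S : Setup d F) : SecZStmt S :=
  secz_of S (coef S) (AL.ubAll S) (AL.lin S) (AL.iso S) (fun _ S' => AL.zml S') fun r => AF.cut r

/-- transfer to rotated frames (C4) -/
theorem trfAll (S : Setup d F) : TrfStmt S :=
  trf_of S AM.covZ (zmrot F) (seczAll S) (fun S' => AL.iso S') fun _ S' => AL.zml S'

/-- no profiles in one rotated frame -/
theorem spzOneAll (S : Setup d F) : SpzOneStmt S :=
  spz_one_of S fun S' => ⟨AL.spzAll S', AL.datAll S', trfAll S', reg S', comp S', AN.rot_stmt S',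
    AD.trOf S' (AN.rot_stmt S')⟩

/-- **OUTPUT OF BLOCK JN**, from the local theorem and inner completeness -/
theorem noLossAll (M : BFSS.Model N d F) (S : Setup d F) (hRep : U.Rep M S)
    (hLoc : ∀ S' : Setup d F, AD.LocStmt S') (hIC : ∀ (e : ℕ) (T' : Setup e F), AN.Cless T' → AD.ICStmt T')
    (hfin : FiniteDimensional ℂ F) (hRot : AE.RotOStmt S) (hIso : ∀ S' : Setup d F, AL.IsoStmt S')
    (hLin : ∀ S' : Setup d F, AL.LinStmt S') (hZ : ∀ S' : Setup d F, AL.ZMemStmt S') (hUB : ∀ S' : Setup d F, AL.UBStmt S')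
    {ι : Type} (ty : ι → AJK.Ty S) (hC : AN.Cless S) (hCov : CovT M S ty) :
    (AJK.pwT hfin hRot hIso hLin hZ hUB ty hC).NoLoss :=
  no_loss_T M hfin S hRep (AN.REP.core_stmt M) (act_stmt M) (no_loss_of S) (spzOneAll S)
    (typT S) (AT.tw_all S hfin hC fun S' _ _ φ => AD.outAll S' φ) (AT.bd5 S) (nl S) (nulB S) (AD.shell S)
    (fun S' => ⟨AD.trOf S' (AN.rot_stmt S'), AD.nonComm S', hLoc S', AD.geo_all S'⟩) hIC hRot hIso hLin hZ hUB ι ty hC hCov

end Vale.Agent.P353.Z.AJ
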