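import Vale.Agent.P353.AN.F.Den
import Vale.Agent.P353.AN.F.Ker
import Vale.Agent.P353.AN.F.Rem
import Vale.Agent.P353.AN.F.Cut

/-! # P353, all `N`: profile spaces — dense test space, ground state, approximation and kernel (from block F)

`S : Setup r K` arbitrary Clifford system with values in the finite dimensional space `K` of the zero modes of the internal part,
`L` the collision covectors. `HL r K = L²(Cfg r; K)`, `DL r K L` = classes of test functions supported off `Coll L`, `rp` = the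
continuous representative, `DsL S β` = free BMN supercharge on `DL`. -/

open MeasureTheory Filter Topology
open scoped ContDiff

namespace Vale.Agent.P353.Z.AJK

open Vale.Agent.P353.Z.AF

variable {r : ℕ} {K : Type*} [NormedAddCommGroup K] [InnerProductSpace ℂ K]

/-- profile space -/
abbrev HL (r : ℕ) (K : Type*) [NormedAddCommGroup K] : Type _ := Lp K 2 (volume : Measure (Cfg r))

lemma tstOff_add {L : Finset (Fin r → ℝ)} {u v : Cfg r → K} (hu : TstOff L u) (hv : TstOff L v) :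
    TstOff L (fun x => u x + v x) := by
  refine ⟨⟨hu.1.1.add hv.1.1, hu.1.2.add hv.1.2⟩, ?_⟩
  have h := tsupport_add u v
  exact (Set.disjoint_union_left.2 ⟨hu.2, hv.2⟩).mono_left h

lemma tstOff_smul {L : Finset (Fin r → ℝ)} {u : Cfg r → K} (hu : TstOff L u) (c : ℂ) :
    TstOff L (fun x => c • u x) := by
  have hs : tsupport (fun x => c • u x) ⊆ tsupport u := by
    refine closure_mono fun x hx => ?_
    simp only [Function.mem_support] at hx ⊢
    intro h0
    exact hx (by rw [h0, smul_zero])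
  exact ⟨⟨contDiff_const.smul hu.1.1, hu.1.2.mono' ((subset_tsupport _).trans hs)⟩, hu.2.mono_left hs⟩

lemma tstOff_zero {L : Finset (Fin r → ℝ)} : TstOff L (fun _ : Cfg r => (0 : K)) := by
  refine ⟨⟨contDiff_const, HasCompactSupport.zero⟩, ?_⟩
  have : tsupport (fun _ : Cfg r => (0 : K)) = ∅ := by
    rw [tsupport_eq_empty_iff]
    rfl
  rw [this]
  exact Set.empty_disjoint _

lemma tstOff_FD (S : Setup r K) {L : Finset (Fin r → ℝ)} {u : Cfg r → K} (hu : TstOff L u) (β : Fin 16) :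
    TstOff L (S.FD β u) := by
  refine ⟨Tst_FD S hu.1 β, hu.2.mono_left ?_⟩
  refine closure_minimal (fun x hx => ?_) (isClosed_tsupport u)
  by_contra hn
  refine hx ?_
  have h0 : u =ᶠ[𝓝 x] fun _ => 0 := notMem_tsupport_iff_eventuallyEq.1 hn
  have h1 : u x = 0 := h0.self_of_nhds
  have h2 : ∀ i A, pd i A u x = 0 := by
    intro i A
    unfold pd
    rw [h0.fderiv_eq]
    simp
  simp [Setup.FD, Setup.Q0, h1, h2]

/-- classes of test functions supported off the collisions -/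
noncomputable def DL (r : ℕ) (K : Type*) [NormedAddCommGroup K] [InnerProductSpace ℂ K] (L : Finset (Fin r → ℝ)) :
    Submodule ℂ (HL r K) where
  carrier := {f | ∃ ζ : Cfg r → K, TstOff L ζ ∧ f =ᵐ[volume] ζ}
  add_mem' := by
    rintro a b ⟨u, hu, hau⟩ ⟨v, hv, hbv⟩
    refine ⟨_, tstOff_add hu hv, ?_⟩
    filter_upwards [Lp.coeFn_add a b, hau, hbv] with x h1 h2 h3
    rw [h1, Pi.add_apply, h2, h3]
  zero_mem' := ⟨_, tstOff_zero, Lp.coeFn_zero _ _ _⟩
  smul_mem' := by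
    rintro c a ⟨u, hu, hau⟩
    refine ⟨_, tstOff_smul hu c, ?_⟩
    filter_upwards [Lp.coeFn_smul c a, hau] with x h1 h2
    rw [h1, Pi.smul_apply, h2]

variable {L : Finset (Fin r → ℝ)}

/-- the smooth representative -/
noncomputable def rp (a : DL r K L) : Cfg r → K := a.2.choose

lemma rp_tst (a : DL r K L) : TstOff L (rp a) := a.2.choose_spec.1

lemma rp_ae (a : DL r K L) : (a : HL r K) =ᵐ[volume] rp a := a.2.choose_spec.2

/-- class of a test function -/
noncomputable def cl (ζ : Cfg r → K) (hζ : TstOff L ζ) : DL r K L := ⟨hζ.1.memLp.toLp ζ, ζ, hζ, hζ.1.memLp.coeFn_toLp⟩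

lemma cl_ae (ζ : Cfg r → K) (hζ : TstOff L ζ) : ((cl ζ hζ : DL r K L) : HL r K) =ᵐ[volume] ζ := hζ.1.memLp.coeFn_toLp

lemma rp_eq {a : DL r K L} {ζ : Cfg r → K} (hζ : TstOff L ζ) (h : (a : HL r K) =ᵐ[volume] ζ) : rp a = ζ :=
  Continuous.ae_eq_iff_eq (volume : Measure (Cfg r)) (rp_tst a).1.1.continuous hζ.1.1.continuous |>.1 ((rp_ae a).symm.trans h)

lemma rp_cl (ζ : Cfg r → K) (hζ : TstOff L ζ) : rp (cl ζ hζ : DL r K L) = ζ := rp_eq hζ (cl_ae ζ hζ)

lemma cl_rp (a : DL r K L) : cl (rp a) (rp_tst a) = a := by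
  refine Subtype.ext (Lp.ext ?_)
  exact (cl_ae _ _).trans (rp_ae a).symm

/-- free BMN supercharge on the test space -/
noncomputable def DsL (S : Setup r K) (β : Fin 16) (a : DL r K L) : DL r K L := cl (S.FD β (rp a)) (tstOff_FD S (rp_tst a) β)

lemma rp_DsL (S : Setup r K) (β : Fin 16) (a : DL r K L) : rp (DsL S β a) = S.FD β (rp a) := rp_cl _ _

lemma inner_cl (ζ : Cfg r → K) (hζ : TstOff L ζ) (w : HL r K) :
    inner ℂ ((cl ζ hζ : DL r K L) : HL r K) w = ∫ x, inner ℂ (ζ x) (w x) := by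
  rw [L2.inner_def]
  refine integral_congr_ae ?_
  filter_upwards [cl_ae ζ hζ] with x hx
  rw [hx]

lemma norm_sq_eq (f : HL r K) : ‖f‖ ^ 2 = nsq f := by
  have h := inner_self_eq_norm_sq_to_K (𝕜 := ℂ) f
  rw [L2.inner_def] at h
  have h2 : (∫ x, inner ℂ (f x) (f x)) = ((nsq f : ℝ) : ℂ) := by
    unfold nsq
    rw [← integral_complex_ofReal]
    refine integral_congr_ae (Eventually.of_forall fun x => ?_)
    change inner ℂ (f x) (f x) = ((‖f x‖ ^ 2 : ℝ) : ℂ)
    rw [inner_self_eq_norm_sq_to_K]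
    push_cast
    rfl
  rw [h2] at h
  have h3 : ((nsq f : ℝ) : ℂ) = ((‖f‖ ^ 2 : ℝ) : ℂ) := by
    rw [h]
    push_cast
    rfl
  exact (Complex.ofReal_injective h3).symm

/-- class of the Gaussian with vector `w` -/
noncomputable def gcl (w : K) : HL r K := (memLp_gss (r := r) w).toLp _

lemma gcl_ae (w : K) : (gcl w : HL r K) =ᵐ[volume] fun x => (gss x : ℂ) • w := (memLp_gss w).coeFn_toLp

/-- **density** of the test space -/
theorem dense (S : Setup r K) (hL : ∀ l ∈ L, l ≠ 0) : Dense ((DL r K L : Submodule ℂ (HL r K)) : Set (HL r K)) := by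
  have h1 := Lp.dense_hasCompactSupport_contDiff (E := Cfg r) (F := K) (μ := (volume : Measure (Cfg r))) (p := 2) (by norm_num)
  have h2 : {f : Lp K 2 (volume : Measure (Cfg r)) | ∃ g : Cfg r → K, f =ᵐ[volume] g ∧ HasCompactSupport g ∧ ContDiff ℝ ∞ g} ⊆
      closure ((DL r K L : Submodule ℂ (HL r K)) : Set (HL r K)) := by
    rintro f ⟨g, hfg, hc, hs⟩
    obtain ⟨ζ, hζ, hl, _⟩ := den (cut r) S L hL (v := g) ⟨hs, hc⟩
    have e : f = hl.mem'.toLp g := Lp.ext (hfg.trans hl.mem'.coeFn_toLp.symm)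
    rw [e]
    exact mem_closure_of_tendsto hl.lim_toLp (Eventually.of_forall fun n => (cl (ζ n) (hζ n) : DL r K L).2)
  exact (h1.mono h2).of_closure

/-- **ground state** is a weak zero mode -/
theorem Ds_g (S : Setup r K) {w : K} (hw : ∀ A α, S.amF A α w = 0) (β : Fin 16) (a : DL r K L) :
    inner ℂ ((DsL S β a : DL r K L) : HL r K) (gcl w) = 0 := by
  have h := (gssS S w hw).2.2.2 L β (rp a) (rp_tst a)
  rw [DsL, inner_cl]
  rw [integral_congr_ae (g := fun x => inner ℂ (S.FD β (rp a) x) ((gss x : ℂ) • w))]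
  · rw [h]
    simp
  · filter_upwards [gcl_ae (r := r) w] with x hx
    rw [hx]

/-- **kernel** -/
theorem kerL [FiniteDimensional ℂ K] (S : Setup r K) (hL : ∀ l ∈ L, l ≠ 0) {Ω : K}
    (h1 : ∀ w : K, (∀ A α, S.amF A α w = 0) → ∃ c : ℂ, w = c • Ω) (w : HL r K)
    (hw : ∀ β (a : DL r K L), inner ℂ ((DsL S β a : DL r K L) : HL r K) w = 0) : ∃ c : ℂ, w = c • gcl Ω := by
  obtain ⟨v, hv, hav⟩ := ker S (rem S) L hL w (Lp.memLp w) (by
    intro β ζ hζ
    have h := hw β (cl ζ hζ)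
    rw [DsL, inner_cl, rp_cl] at h
    rw [h]
    simp)
  obtain ⟨c, rfl⟩ := h1 v hv
  refine ⟨c, Lp.ext ?_⟩
  filter_upwards [hav, Lp.coeFn_smul c (gcl Ω : HL r K), gcl_ae (r := r) Ω] with x h2 h3 h4
  rw [h2, h3, Pi.smul_apply, h4, smul_comm]

/-- **approximation** of the ground state in the graph norm -/
theorem appL (S : Setup r K) (hL : ∀ l ∈ L, l ≠ 0) {w : K} (hw : ∀ A α, S.amF A α w = 0) {ε : ℝ} (hε : 0 < ε) :
    ∃ a : DL r K L, ‖(a : HL r K) - gcl w‖ < ε ∧ ∀ β, ‖((DsL S β a : DL r K L) : HL r K)‖ < ε := by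
  obtain ⟨ζ, hζ, h1, h2⟩ := app (cut r) S L hL w hw
  have e1 : ∀ n, ‖((cl (ζ n) (hζ n) : DL r K L) : HL r K) - gcl w‖ ^ 2 = nsq (fun x => ζ n x - (gss x : ℂ) • w) := by
    intro n
    rw [norm_sq_eq]
    unfold nsq
    refine integral_congr_ae ?_
    filter_upwards [cl_ae (ζ n) (hζ n), gcl_ae (r := r) w,
      Lp.coeFn_sub ((cl (ζ n) (hζ n) : DL r K L) : HL r K) (gcl w)] with x h3 h4 h5
    simp only [h5, Pi.sub_apply, h3, h4]
  have e2 : ∀ n β, ‖((DsL S β (cl (ζ n) (hζ n)) : DL r K L) : HL r K)‖ ^ 2 = nsq (fun x => S.FD β (ζ n) x - 0) := by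
    intro n β
    rw [norm_sq_eq]
    unfold nsq
    refine integral_congr_ae ?_
    have h3 : ((DsL S β (cl (ζ n) (hζ n)) : DL r K L) : HL r K) =ᵐ[volume] S.FD β (ζ n) := by
      have := rp_ae (DsL S β (cl (ζ n) (hζ n)) : DL r K L)
      rwa [rp_DsL, rp_cl] at this
    filter_upwards [h3] with x h4
    simp only [h4, sub_zero]
  have hε2 : 0 < ε ^ 2 := by positivity
  have t1 : ∀ᶠ n in atTop, nsq (fun x => ζ n x - (gss x : ℂ) • w) < ε ^ 2 := h1.lim.eventually_lt_const hε2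
  have t2 : ∀ᶠ n in atTop, ∀ β, nsq (fun x => S.FD β (ζ n) x - 0) < ε ^ 2 :=
    eventually_all.2 fun β => (h2 β).lim.eventually_lt_const hε2
  obtain ⟨n, hn1, hn2⟩ := (t1.and t2).exists
  refine ⟨cl (ζ n) (hζ n), ?_, fun β => ?_⟩
  · exact lt_of_pow_lt_pow_left₀ 2 hε.le ((e1 n).trans_lt hn1)
  · exact lt_of_pow_lt_pow_left₀ 2 hε.le ((e2 n β).trans_lt (hn2 β))

end Vale.Agent.P353.Z.AJK
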