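import Vale.Agent.P353.AN.JN.AppKer
import Vale.Agent.P353.AN.X.Bri

/-! # P353, all `N`: the finite dimensional Clifford module of the zero modes of the internal part

`K ≤ F` is a subspace invariant under the block diagonal fermions (the reference vacuum space of the bundle), `o j` an orthonormal basis of
the `K`-valued zero modes of the semisimple part `s`. The centre fermions `θ^z` act on their span: `kset : Setup dz (ℂ^n)`. -/

open MeasureTheory Filter Topology Matrix
open scoped ContDiff

namespace Vale.Agent.P353.Z.AJK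

variable {d dh dm ds dz n : ℕ} {F : Type*} [NormedAddCommGroup F] [InnerProductSpace ℂ F]

/-- orthonormal family of `L²` functions whose span is invariant under the operators `θ_α^{ζ a}` -/
structure ZFam (S : Setup d F) (ζ : Fin dz → Fin d) (o : Fin n → Cfg ds → F) : Prop where
  inj : Function.Injective ζ
  mem : ∀ j, MemLp (o j) 2 (volume : Measure (Cfg ds))
  orth : ∀ j k, ∫ s, inner ℂ (o j s) (o k s) = if j = k then 1 else 0
  clo : ∀ α a k, ∃ c : Fin n → ℂ, ∀ᵐ s ∂(volume : Measure (Cfg ds)), S.th α (ζ a) (o k s) = ∑ j, c j • o j s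

/-- matrix elements -/
noncomputable def thM (S : Setup d F) (ζ : Fin dz → Fin d) (o : Fin n → Cfg ds → F) (α : Fin 16) (a : Fin dz) :
    Matrix (Fin n) (Fin n) ℂ := Matrix.of fun j k => ∫ s, inner ℂ (o j s) (S.th α (ζ a) (o k s))

lemma ip_int {u v : Cfg ds → F} (hu : MemLp u 2 (volume : Measure (Cfg ds))) (hv : MemLp v 2 (volume : Measure (Cfg ds))) :
    Integrable (fun s => inner ℂ (u s) (v s)) (volume : Measure (Cfg ds)) := by
  have h := L2.integrable_inner (𝕜 := ℂ) (hu.toLp u) (hv.toLp v)
  refine h.congr ?_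
  filter_upwards [hu.coeFn_toLp, hv.coeFn_toLp] with s h1 h2
  rw [h1, h2]

lemma clm_mem (T : F →L[ℂ] F) {u : Cfg ds → F} (hu : MemLp u 2 (volume : Measure (Cfg ds))) :
    MemLp (fun s => T (u s)) 2 (volume : Measure (Cfg ds)) := T.comp_memLp' hu

variable {S : Setup d F} {ζ : Fin dz → Fin d} {o : Fin n → Cfg ds → F}

/-- coefficients are matrix elements -/
lemma ZFam.clo' (h : ZFam S ζ o) (α : Fin 16) (a : Fin dz) (k : Fin n) :
    ∀ᵐ s ∂(volume : Measure (Cfg ds)), S.th α (ζ a) (o k s) = ∑ j, thM S ζ o α a j k • o j s := by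
  obtain ⟨c, hc⟩ := h.clo α a k
  have e : ∀ j, thM S ζ o α a j k = c j := by
    intro j
    simp only [thM, Matrix.of_apply]
    rw [integral_congr_ae (g := fun s => ∑ l, c l * inner ℂ (o j s) (o l s))]
    · rw [integral_finsetSum _ fun l _ => (ip_int (h.mem j) (h.mem l)).const_mul _]
      simp only [integral_const_mul, h.orth]
      simp
    · filter_upwards [hc] with s hs
      rw [hs, inner_sum]
      exact Finset.sum_congr rfl fun l _ => by rw [inner_smul_right]
  filter_upwards [hc] with s hs
  rw [hs]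
  exact Finset.sum_congr rfl fun j _ => by rw [e]

/-- products -/
lemma ZFam.mul (h : ZFam S ζ o) (α β : Fin 16) (a b : Fin dz) (j k : Fin n) :
    (thM S ζ o α a * thM S ζ o β b) j k = ∫ s, inner ℂ (o j s) (S.th α (ζ a) (S.th β (ζ b) (o k s))) := by
  rw [Matrix.mul_apply, integral_congr_ae (g := fun s => ∑ l, thM S ζ o β b l k * inner ℂ (o j s) (S.th α (ζ a) (o l s)))]
  · rw [integral_finsetSum _ fun l _ => (ip_int (h.mem j) (clm_mem _ (h.mem l))).const_mul _]
    refine Finset.sum_congr rfl fun l _ => ?_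
    rw [integral_const_mul, mul_comm]
    rfl
  · filter_upwards [h.clo' β b k] with s hs
    rw [hs, map_sum, inner_sum]
    exact Finset.sum_congr rfl fun l _ => by rw [map_smul, inner_smul_right]

lemma ZFam.herm (_h : ZFam S ζ o) (α : Fin 16) (a : Fin dz) : (thM S ζ o α a)ᴴ = thM S ζ o α a := by
  ext j k
  rw [Matrix.conjTranspose_apply]
  simp only [thM, Matrix.of_apply]
  change (starRingEnd ℂ) _ = _
  rw [← integral_conj]
  refine integral_congr_ae (Eventually.of_forall fun s => ?_)
  change (starRingEnd ℂ) (inner ℂ (o k s) (S.th α (ζ a) (o j s))) = inner ℂ (o j s) (S.th α (ζ a) (o k s))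
  rw [inner_conj_symm, S.th_sa]

/-- the Clifford system of the centre fermions on the zero modes of the internal part -/
noncomputable def kset (S : Setup d F) (ζ : Fin dz → Fin d) (o : Fin n → Cfg ds → F) (h : ZFam S ζ o) :
    Setup dz (EuclideanSpace ℂ (Fin n)) where
  g := S.g
  g_symm := S.g_symm
  g_anti := S.g_anti
  th := fun α a => Matrix.toEuclideanCLM (𝕜 := ℂ) (thM S ζ o α a)
  th_anti := by
    intro α A β B
    have key : thM S ζ o α A * thM S ζ o β B + thM S ζ o β B * thM S ζ o α A = if α = β ∧ A = B then 1 else 0 := by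
      ext j k
      rw [Matrix.add_apply, h.mul, h.mul, ← integral_add
        (ip_int (h.mem j) (clm_mem (S.th α (ζ A)) (clm_mem (S.th β (ζ B)) (h.mem k))))
        (ip_int (h.mem j) (clm_mem (S.th β (ζ B)) (clm_mem (S.th α (ζ A)) (h.mem k))))]
      have e : ∀ s, inner ℂ (o j s) (S.th α (ζ A) (S.th β (ζ B) (o k s))) +
          inner ℂ (o j s) (S.th β (ζ B) (S.th α (ζ A) (o k s))) =
          (if α = β ∧ A = B then 1 else 0) * inner ℂ (o j s) (o k s) := by
        intro s
        rw [← inner_add_right]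
        have h1 := DFunLike.congr_fun (S.th_anti α (ζ A) β (ζ B)) (o k s)
        simp only [_root_.add_apply, mul_apply_eq_comp] at h1
        rw [h1]
        by_cases hc : α = β ∧ A = B
        · rw [if_pos hc, if_pos ⟨hc.1, congrArg ζ hc.2⟩]
          simp
        · rw [if_neg hc, if_neg (fun h2 => hc ⟨h2.1, h.inj h2.2⟩)]
          simp
      simp only [e, integral_const_mul, h.orth]
      by_cases hc : α = β ∧ A = B
      · rw [if_pos hc, if_pos hc, one_mul, Matrix.one_apply]
      · rw [if_neg hc, if_neg hc, zero_mul, Matrix.zero_apply]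
    rw [← map_mul, ← map_mul, ← map_add, key]
    by_cases hc : α = β ∧ A = B
    · rw [if_pos hc, if_pos hc, map_one]
    · rw [if_neg hc, if_neg hc, map_zero]
  κ := 1
  κ_pos := one_pos
  f := fun _ _ _ => 0
  f_swap := by intros; simp
  f_cyc := by intros; rfl
  f_jac := by intros; simp
  g_real := S.g_real
  th_sa := by
    intro α A v w
    have h1 : star (Matrix.toEuclideanCLM (𝕜 := ℂ) (thM S ζ o α A)) = Matrix.toEuclideanCLM (𝕜 := ℂ) (thM S ζ o α A) := by
      rw [← map_star, Matrix.star_eq_conjTranspose, h.herm]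
    rw [ContinuousLinearMap.star_eq_adjoint] at h1
    conv_lhs => rw [← h1]
    rw [ContinuousLinearMap.adjoint_inner_left]

lemma kset_th (h : ZFam S ζ o) (α : Fin 16) (a : Fin dz) (v : EuclideanSpace ℂ (Fin n)) (j : Fin n) :
    (kset S ζ o h).th α a v j = ∑ k, thM S ζ o α a j k * v k := by
  change (Matrix.toEuclideanCLM (𝕜 := ℂ) (thM S ζ o α a) v).ofLp j = _
  rw [Matrix.ofLp_toEuclideanCLM]
  rfl

/-- the module structure: `θ^z` acts on `∑ v_k o_k` by `kset` -/
lemma kset_act (h : ZFam S ζ o) (α : Fin 16) (a : Fin dz) (v : EuclideanSpace ℂ (Fin n)) :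
    ∀ᵐ s ∂(volume : Measure (Cfg ds)), S.th α (ζ a) (∑ k, v k • o k s) = ∑ j, (kset S ζ o h).th α a v j • o j s := by
  have h1 : ∀ᵐ s ∂(volume : Measure (Cfg ds)), ∀ k, S.th α (ζ a) (o k s) = ∑ j, thM S ζ o α a j k • o j s :=
    eventually_countable_forall.2 fun k => h.clo' α a k
  filter_upwards [h1] with s hs
  rw [map_sum]
  simp only [map_smul, hs, kset_th, Finset.smul_sum, Finset.sum_smul, smul_smul]
  rw [Finset.sum_comm]
  exact Finset.sum_congr rfl fun j _ => Finset.sum_congr rfl fun k _ => by rw [mul_comm]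

end Vale.Agent.P353.Z.AJK
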