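import Vale.Agent.P353.AN.JN.StmtC
import Vale.Agent.P353.AN.D.Tr
import Vale.Agent.P353.AN.A.Rot

/-! # P353, all `N`, block JN, C5: all slice functionals vanish at the regular points of the stratum -/

open MeasureTheory Filter Topology Matrix
open scoped ContDiff

namespace Vale.Agent.P353.Z.AJ

variable {d dh dm r ds n : ℕ} {F : Type} [NormedAddCommGroup F] [InnerProductSpace ℂ F]

/-- the rotated setup is centreless -/
theorem so827_cless {S : Setup d F} (hC : AN.Cless S) (R : Matrix (Fin 9) (Fin 9) ℝ) (hR : R * R.transpose = 1)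
    (O : Matrix (Fin d) (Fin d) ℝ) (hO : O * O.transpose = 1) :
    AN.Cless (S.rot R hR O hO) := by
  intro v hv
  have ho := AN.rt_orth hO
  have key : ∀ B C, ∑ A, (S.rot R hR O hO).f A B C * v A =
      ∑ b, O B b • ∑ c, O C c • ∑ a, S.f a b c * ∑ A, O A a * v A := by
    intro B C
    change ∑ A, (∑ a, ∑ b, ∑ c, O A a * O B b * O C c * S.f a b c) * v A = _
    simp only [smul_eq_mul, Finset.sum_mul, Finset.mul_sum]
    rw [Finset.sum_comm]
    refine (Finset.sum_congr rfl fun a _ => Finset.sum_comm).trans ?_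
    rw [Finset.sum_comm]
    refine Finset.sum_congr rfl fun b _ => ?_
    refine (Finset.sum_congr rfl fun a _ => Finset.sum_comm).trans ?_
    rw [Finset.sum_comm]
    refine Finset.sum_congr rfl fun c _ => Finset.sum_congr rfl fun a _ => Finset.sum_congr rfl fun A _ => ?_
    ring
  have h2 : ∀ k l, (∑ a, S.f a k l * ∑ A, O A a * v A) = 0 := by
    intro k l
    rw [← AN.rt_two (M := ℝ) (fun A a => O A a) ho k l fun b c => ∑ a, S.f a b c * ∑ A, O A a * v A]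
    refine Finset.sum_eq_zero fun B _ => Finset.sum_eq_zero fun C _ => ?_
    rw [← key B C, hv B C, smul_zero]
  have h3 := hC (fun a => ∑ A, O A a * v A) h2
  funext B
  have h4 : ∑ a, O B a * ∑ A, O A a * v A = v B := by
    simp only [Finset.mul_sum, ← mul_assoc]
    rw [Finset.sum_comm]
    simp only [← Finset.sum_mul]
    have h5 : ∀ A, ∑ a, O B a * O A a = if B = A then 1 else 0 := by
      intro A
      have := congrFun (congrFun hO B) A
      rw [Matrix.mul_apply, Matrix.one_apply] at this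
      simpa [Matrix.transpose_apply] using this
    simp [h5]
  rw [← h4]
  refine Finset.sum_eq_zero fun a _ => ?_
  rw [show (∑ A, O A a * v A) = 0 from congrFun h3 a, mul_zero]

/-- transport of gauge invariant test functions -/
theorem so827_ginv {S : Setup d F} (h : AN.RotStmt S) {R : Matrix (Fin 9) (Fin 9) ℝ} (hR : R * R.transpose = 1)
    {O : Matrix (Fin d) (Fin d) ℝ} (hO : O * O.transpose = 1) {u : Cfg d → F} (hu : AD.GInv S u) :
    AD.GInv (S.rot R hR O hO) (rotu R O u) := by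
  have hF := AD.Tr.mkFx h hR hO
  obtain ⟨_, _, _, _, _, _, hG⟩ := h R hR O hO
  have hT : Setup.Tst (rotu R O u) := hF.tst hu.1
  refine ⟨hT, fun C x => ?_⟩
  have h1 := hG (rotu R O u) (hT.1.differentiable (by simp)) C (rox R.transpose O.transpose x)
  have hback : (fun z => rotu R O u (rox R O z)) = u := by
    funext z
    show u (rox R.transpose O.transpose (rox R O z)) = u z
    rw [hF.l]
  rw [hF.r, hback] at h1
  rw [h1]
  exact Finset.sum_eq_zero fun C' _ => by rw [hu.2 C', smul_zero]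

theorem so827_mas {S : Setup d F} (h : AN.RotStmt S) {R : Matrix (Fin 9) (Fin 9) ℝ} (hR : R * R.transpose = 1)
    {O : Matrix (Fin d) (Fin d) ℝ} (hO : O * O.transpose = 1) (u : Cfg d → F) (s t : ℝ) :
    AD.mas (rotu R O u) (AD.shl d s t) = AD.mas u (AD.shl d s t) := by
  have hF := AD.Tr.mkFx h hR hO
  unfold AD.mas
  rw [hF.setInt' _ (hF.shl s t)]
  refine integral_congr_ae (Eventually.of_forall fun x => ?_)
  show ‖u (rox R.transpose O.transpose (rox R O x))‖ ^ 2 = ‖u x‖ ^ 2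
  rw [hF.l]

/-- transport of sequences -/
theorem so827_sqM {S : Setup d F} (h : AN.RotStmt S) {R : Matrix (Fin 9) (Fin 9) ℝ} (hR : R * R.transpose = 1)
    {O : Matrix (Fin d) (Fin d) ℝ} (hO : O * O.transpose = 1) {Rn : ℕ → ℝ} {u : ℕ → Cfg d → F}
    (hS : AL.SqM S Rn u) : AL.SqM (S.rot R hR O hO) Rn (fun n => rotu R O (u n)) where
  inv n := so827_ginv h hR hO (hS.inv n)
  pos := hS.pos
  lim := hS.lim
  bd s t hs ht := by
    obtain ⟨C, hC⟩ := hS.bd s t hs ht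
    exact ⟨C, fun n => (so827_mas h hR hO (u n) _ _).trans_le (hC n)⟩

theorem so827_rox_one (R : Matrix (Fin 9) (Fin 9) ℝ) (x : Cfg d) (p : Fin 9 × Fin d) :
    rox R 1 x p = ∑ j, R p.1 j * x (j, p.2) := by
  have e : rox R 1 x p = ∑ j, ∑ B, R p.1 j * (1 : Matrix (Fin d) (Fin d) ℝ) p.2 B * x (j, B) := rfl
  rw [e]
  refine Finset.sum_congr rfl fun j _ => ?_
  simp only [mul_assoc, ← Finset.mul_sum]
  simp [Matrix.one_apply]

theorem so827_cmb (ψ : Spl r ds dh) (η : Cfg r) : AD.cmb (spsw ψ) 0 η = Z.cmb ψ η 0 := by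
  ext ⟨i, A⟩
  obtain ⟨a, rfl⟩ := ψ.surjective A
  rcases a with a | a <;> simp [Z.cmb, AD.cmb, spsw]

theorem so827_rcmb (Q : Matrix (Fin 9) (Fin 9) ℝ) (ψ : Spl r ds dh) (η : Cfg r) :
    rox Q 1 (AN.cmb ψ η 0) = AD.cmb (spsw ψ) 0 (rox Q 1 η) := by
  ext ⟨i, A⟩
  obtain ⟨a, rfl⟩ := ψ.surjective A
  rw [so827_rox_one]
  rcases a with a | a
  · have h1 : AD.cmb (spsw ψ) 0 (rox Q 1 η) (i, ψ (Sum.inl a)) = rox Q 1 η (i, a) := by simp [AD.cmb, spsw]
    rw [h1, so827_rox_one]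
    refine Finset.sum_congr rfl fun j _ => ?_
    simp [AN.cmb]
  · have h1 : AD.cmb (spsw ψ) 0 (rox Q 1 η) (i, ψ (Sum.inr a)) = 0 := by simp [AD.cmb, spsw]
    rw [h1]
    refine Finset.sum_eq_zero fun j _ => ?_
    simp [AN.cmb]

/-- change of the name of the setup -/
theorem so827_asm [FiniteDimensional ℂ F] {S S₂ : Setup d F} {Y : Cfg d} {Rn : ℕ → ℝ} {u : ℕ → Cfg d → F}
    {Q : Matrix (Fin 9) (Fin 9) ℝ} (hQ : Q * Q.transpose = 1) {O : Matrix (Fin d) (Fin d) ℝ}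
    (hO : O * O.transpose = 1) {φ : Spl dh dm d} {ψ' : Spl ds r dh} {z : Cfg r} (he : S₂ = S.rot Q hQ O hO)
    (hx : rox Q O Y = emb φ (AD.cmb ψ' 0 z) 0) (h : AD.Std2 S₂ φ ψ' z) {ε₁ : ℝ} (hε₁ : 0 < ε₁)
    (H : ∀ ε : ℝ, 0 < ε → ε ≤ ε₁ → AD.SPZ S₂ φ ψ' z h ε Rn (fun n => rotu Q O (u n))) :
    SpzAt S Y Rn u := by
  subst he
  exact ⟨Q, hQ, O, hO, dh, dm, ds, r, φ, ψ', z, h, hx, ε₁, hε₁, H⟩

/-- **C5** -/
theorem spz_one_of (S : Setup d F) : SpzOneOfStmt S := by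
  intro H hfin hCl hIC h9 O hO dh dm r ds n φ ψ z₀ h2 L Om K U o T hD R u hSq hZ Y η hη hRg hY
  have h1 : (1 : Matrix (Fin d) (Fin d) ℝ) * (1 : Matrix (Fin d) (Fin d) ℝ).transpose = 1 := by simp
  have hRot := (H S).2.2.2.2.2.1
  have hComp := (H S).2.2.2.2.1
  set S₁ : Setup d F := S.rot 1 h9 O hO with hS₁
  have hdet : (∑ i, AD.Dz S₁ φ (spsw ψ) η i * AD.Dz S₁ φ (spsw ψ) η i).det ≠ 0 := by
    have h3 : ∀ i, AD.Dz S₁ φ (spsw ψ) η i = S₁.Dz φ ψ η i := fun i => by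
      rw [AD.Dz, so827_cmb, Setup.Dz]
    simp only [h3]
    exact hRg
  obtain ⟨Q, hQ, h3⟩ := (H S₁).2.2.2.1 dh dm ds r φ (spsw ψ) z₀ h2 η hdet h1
  obtain ⟨hc1, hc2, hc3⟩ := hComp Q hQ O hO h9 h1
  have hCl1 : AN.Cless S₁ := so827_cless hCl 1 h9 O hO
  have hCl2 : AN.Cless (S₁.rot Q hQ 1 h1) := so827_cless hCl1 Q hQ 1 h1
  have hic : AD.ICStmt h3.ss := hIC ds h3.ss h3.less
  obtain ⟨L', Om', K', U', n', o', T', hD'⟩ := (H (S₁.rot Q hQ 1 h1)).2.1 hfin dh dm r ds φ ψ (rox Q 1 η) h3 hic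
  have hη' : rox Q 1 η ≠ 0 := by
    intro h0
    apply hη
    rw [← norm_eq_zero, ← AN.rt_norm hQ (O := (1 : Matrix (Fin r) (Fin r) ℝ)) (by simp) η, h0, norm_zero]
  have hSq1 : AL.SqM S₁ R (fun k => rotu 1 O (u k)) := so827_sqM hRot h9 hO hSq
  have hRot1 := (H S₁).2.2.2.2.2.1
  have hSq2 : AL.SqM (S₁.rot Q hQ 1 h1) R (fun k => rotu Q 1 (rotu 1 O (u k))) := so827_sqM hRot1 hQ h1 hSq1
  have htr := (H S₁).2.2.1 hfin hCl1 Q hQ h1 dh dm r ds n n' φ ψ z₀ h2 L Om K U o T hD L' Om' K' U' o' T' hD'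
    R (fun k => rotu 1 O (u k)) hSq1 hZ
  obtain ⟨ε₀, hε₀, hsp⟩ := (H (S₁.rot Q hQ 1 h1)).1 hfin hCl2 dh dm r ds n' φ ψ (rox Q 1 η) h3 hη' L' Om' K' U' o' T' hD'
  have hu : ∀ k, rotu Q 1 (rotu 1 O (u k)) = rotu Q O (u k) := by
    intro k
    funext x
    show u k (rox (1 : Matrix (Fin 9) (Fin 9) ℝ).transpose O.transpose
      (rox Q.transpose (1 : Matrix (Fin d) (Fin d) ℝ).transpose x)) = u k (rox Q.transpose O.transpose x)
    congr 1
    have hF := AD.Tr.mkFx hRot hQ hO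
    have hF1 := AD.Tr.mkFx hRot h9 hO
    have hFQ := AD.Tr.mkFx hRot hQ h1
    have e1 : rox Q 1 (rox 1 O (rox Q.transpose O.transpose x)) = x := by rw [hc2, hF.r]
    calc rox (1 : Matrix (Fin 9) (Fin 9) ℝ).transpose O.transpose
          (rox Q.transpose (1 : Matrix (Fin d) (Fin d) ℝ).transpose x)
        = rox (1 : Matrix (Fin 9) (Fin 9) ℝ).transpose O.transpose
          (rox Q.transpose (1 : Matrix (Fin d) (Fin d) ℝ).transpose
            (rox Q 1 (rox 1 O (rox Q.transpose O.transpose x)))) := by rw [e1]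
      _ = rox Q.transpose O.transpose x := by rw [hFQ.l, hF1.l]
  refine so827_asm hQ hO hc1 ?_ h3 hε₀ fun ε hε hε' => ?_
  · rw [← hc2, hY, hc3, so827_rcmb]
  · have h4 := hsp ε hε hε' R (fun k => rotu Q 1 (rotu 1 O (u k))) hSq2 htr
    simp only [hu] at h4
    exact h4

end Vale.Agent.P353.Z.AJ
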