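import Vale.Agent.P353.AN.JN.Defs
import Vale.Agent.P353.AN.TW.Stmt
import Vale.Agent.P353.AN.D.StmtL

/-! # P353, all `N`, block JN (helper714): no loss of mass (statements)

A prover delivers `theorem <name> (S : Setup d F) … : XStmt S` in `Vale/Agent/P353/AN/JN/<File>.lean`, sorry free. -/

open MeasureTheory Filter Topology
open scoped ContDiff

namespace Vale.Agent.P353.Z.AJ

variable {d dh dm ds dz : ℕ} {F : Type*} [NormedAddCommGroup F] [InnerProductSpace ℂ F]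

/-- the function in the rotated frame -/
noncomputable def rotu (R : Matrix (Fin 9) (Fin 9) ℝ) (O : Matrix (Fin d) (Fin d) ℝ) (u : Cfg d → F) (x : Cfg d) : F :=
  u (rox R.transpose O.transpose x)

/-- all slice functionals at `Y` tend to zero, in one standard frame -/
def SpzAt [FiniteDimensional ℂ F] (S : Setup d F) (Y : Cfg d) (Rn : ℕ → ℝ) (u : ℕ → Cfg d → F) : Prop :=
  ∃ (R : Matrix (Fin 9) (Fin 9) ℝ) (hR : R * R.transpose = 1) (O : Matrix (Fin d) (Fin d) ℝ) (hO : O * O.transpose = 1)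
    (dh dm ds dz : ℕ) (φ : Spl dh dm d) (ψ : Spl ds dz dh) (z₀ : Cfg dz) (h : AD.Std2 (S.rot R hR O hO) φ ψ z₀),
    rox R O Y = emb φ (AD.cmb ψ 0 z₀) 0 ∧ ∃ ε₁ : ℝ, 0 < ε₁ ∧ ∀ ε : ℝ, 0 < ε → ε ≤ ε₁ →
      AD.SPZ (S.rot R hR O hO) φ ψ z₀ h ε Rn (fun n => rotu R O (u n))

/-- **N1** all points are null. PROOF: strong induction on `cd S Y`, `Y ≠ 0`, `S.V Y = 0` (D1 `NonCommStmt` otherwise). Let `Y'` be the point of the
hypothesis and take its frame. `h.ss` is centreless (`h.less`), so `ICStmt h.ss` by hypothesis `hIC`. `LocStmt (S.rot R hR O hO)` at `z₀` (`emb … ≠ 0` since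
`rox` is an isometry), with `ε = min ε₀ ε₁`: the rotated sequence is `Sq` (`TrStmt`), non commuting points are null (`NonCommStmt` for the rotated
setup), commuting points with smaller centraliser are null (induction hypothesis, `cd` and `NulE` are transported by `TrStmt`; `cd = dh` at `Y'` by
`GeoStmt`); so `NulE` at `rox R O Y'`, hence at `Y'` (`TrStmt`), hence `Nul` at `Y`. -/
def NulStmt (S : Setup d F) : Prop := ∀ _ : FiniteDimensional ℂ F, AD.TrStmt S → AD.NonCommStmt S →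
  (∀ (R : Matrix (Fin 9) (Fin 9) ℝ) (hR : R * R.transpose = 1) (O : Matrix (Fin d) (Fin d) ℝ) (hO : O * O.transpose = 1),
    AD.LocStmt (S.rot R hR O hO) ∧ AD.NonCommStmt (S.rot R hR O hO) ∧ AD.GeoStmt (S.rot R hR O hO)) →
  (∀ (e : ℕ) (T : Setup e F), AN.Cless T → AD.ICStmt T) →
  ∀ (Rn : ℕ → ℝ) (u : ℕ → Cfg d → F), AD.Sq S Rn u →
    (∀ Y, Y ≠ 0 → S.V Y = 0 → ∃ Y', Y' ≠ 0 ∧ S.V Y' = 0 ∧ AD.cd S Y' = AD.cd S Y ∧
      (AD.Nul Rn u Y' → AD.Nul Rn u Y) ∧ SpzAt S Y' Rn u) →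
    ∀ Y, Y ≠ 0 → AD.Nul Rn u Y

/-- **N2** no loss from null points. PROOF. `R_n ≥ 1` eventually. TW5 (`hTW`): `R_n²En(Ψ_n) ≤ C'` and `mas {L R_n ≤ |x|} ≤ C'/L²`. So `Sq S R Ψ` (for the
finitely many `n` with `R_n < 1` or `R_n ≤ 0`: drop them, e.g. replace the sequences by their tails). `ShellStmt`: `mas (shl (ηR_n) (LR_n)) → 0` for all
`0 < η < L`. Inner part: `ICStmt S` with `ρ = 2ηR_n ≥ 1`: `mas (Ψ_n - ∑⟨o_j,Ψ_n⟩o_j) (ball 0 (2ηR_n)) ≤ C·4η²R_n²En(Ψ_n) ≤ C''η²`; `⟨o_j,Ψ_n⟩ → 0` (`o_j ∈ L²`, `Ψ_n` bounded,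
local weak limits `0`; density of test functions), so `limsup mas (ball 0 (2ηR_n)) ≤ 2C''η²`. Total: `limsup nsq Ψ_n ≤ 2C''η² + C'/L²`. -/
def NlStmt (S : Setup d F) : Prop := ∀ _ : FiniteDimensional ℂ F, AT.TWStmt S → AT.BdStmt S → AD.ICStmt S → AD.ShellStmt S →
  ∀ (Rn : ℕ → ℝ) (Ψ : ℕ → Cfg d → F) (C : ℝ), Prof.Bdd S Rn Ψ C →
    (AD.Sq S (fun n => max (Rn n) 1) Ψ → ∀ Y, Y ≠ 0 → AD.Nul (fun n => max (Rn n) 1) Ψ Y) →
    (∀ ζ : Cfg d → F, Setup.Tst ζ → Tendsto (fun n => ipr ζ (Ψ n)) atTop (𝓝 0)) →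
    Tendsto (fun n => nsq (Ψ n)) atTop (𝓝 0)

/-- **N3** rotated frames at regular points of the stratum. PROOF. `S' = S.rot R hR 1`: structure constants, `κ`, `IsSub`, `cen`, `less` are unchanged
(`O = 1`); `D'_i(rz R η) = ∑_jR_{ij}D_j(η)` (`AX.rot_Dz`, `DM_rz` in `AN/X/VFr.lean`). The `D_i(η₀)` are commuting antisymmetric with `∑D_i²` invertible, so
some combination `∑e_iD_i`, `|e| = 1`, is invertible (maximal rank argument in `AN/A/Std.lean`); `R` = orthogonal matrix with last row `e`. -/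
def RegStmt (S : Setup d F) : Prop := ∀ (dh dm ds dz : ℕ) (φ : Spl dh dm d) (ψ : Spl ds dz dh) (z₀ : Cfg dz), AD.Std2 S φ ψ z₀ →
  ∀ η₀ : Cfg dz, (∑ i, AD.Dz S φ ψ η₀ i * AD.Dz S φ ψ η₀ i).det ≠ 0 →
  ∀ h1 : (1 : Matrix (Fin d) (Fin d) ℝ) * (1 : Matrix (Fin d) (Fin d) ℝ).transpose = 1,
    ∃ (R : Matrix (Fin 9) (Fin 9) ℝ) (hR : R * R.transpose = 1), AD.Std2 (S.rot R hR 1 h1) φ ψ (rox R 1 η₀)

/-- **N4** composition of frames: `(S.rot 1 O).rot R 1 = S.rot R O` as far as needed. PROOF: ext on the fields (`Setup` and `CS` are structures; `1 * O`, sums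
with Kronecker deltas). -/
def CompStmt (S : Setup d F) : Prop := ∀ (R : Matrix (Fin 9) (Fin 9) ℝ) (hR : R * R.transpose = 1)
  (O : Matrix (Fin d) (Fin d) ℝ) (hO : O * O.transpose = 1)
  (h9 : (1 : Matrix (Fin 9) (Fin 9) ℝ) * (1 : Matrix (Fin 9) (Fin 9) ℝ).transpose = 1)
  (h1 : (1 : Matrix (Fin d) (Fin d) ℝ) * (1 : Matrix (Fin d) (Fin d) ℝ).transpose = 1),
  (S.rot 1 h9 O hO).rot R hR 1 h1 = S.rot R hR O hO ∧ (∀ x : Cfg d, rox R 1 (rox 1 O x) = rox R O x) ∧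
    ∀ (dh dm : ℕ) (φ : Spl dh dm d) (y : Cfg dh), rox R 1 (emb φ y 0) = emb φ (rox R 1 y) 0

end Vale.Agent.P353.Z.AJ
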