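import Vale.Agent.P353.AN.MB.Stmt
import Vale.Agent.P353.AN.REP.Stmt

/-! # P353, all `N`, block JN (helper714): no loss of mass for the concrete weak profile system (statements)

All types are given in the colour frame `O` (`S.rot 1 O`), with the data `AL.Dat`. A prover delivers `theorem <name> … : XStmt …` in
`Vale/Agent/P353/AN/JN/<File>.lean`, importing this file and landed files, with other statements only as hypotheses. -/

open MeasureTheory Filter Topology Matrix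
open scoped ContDiff

namespace Vale.Agent.P353.Z.AJ

variable {d dh dm r ds n : ℕ} {F : Type} [NormedAddCommGroup F] [InnerProductSpace ℂ F]

/-- **C1** sections with values in the profile bundle have coefficients. PROOF. `Coll L` is a null set (`AF.CutStmt`). For almost every `η ∉ Coll L` (Fubini: `a η ∈ L²(Cfg ds)`): `U(η)⁻¹` exists
(`U_inner`, `U_surj`), commutes with `θ^h` (`U_comm`), so `U(η)⁻¹∘a(η)` is a zero mode (`ZMLStmt`) with values in `K` (`U_mem`), hence `= ∑_jc_j(η)o_j` a.e. (`Dat.full`), and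
`c_j(η) = ∫⟨o_j(s), U(η)⁻¹a(η,s)⟩ds = ∫⟨U(η)o_j(s), a(η,s)⟩ds` (`ort`); measurable in `η` (`U` continuous off `Coll L`, `StronglyMeasurable.integral_prod_right`), `∑_j|c_j(η)|² = ∫‖a(η,s)‖²ds`.
Put `c = 0` outside `A` and on `Coll L`. -/
def CoefStmt (S : Setup d F) : Prop := FiniteDimensional ℂ F → (∀ (e : ℕ) (S' : Setup e F), AL.ZMLStmt S') → (∀ r, AF.CutStmt r) →
  ∀ (dh dm r ds n : ℕ) (φ : Spl dh dm d) (ψ : Spl r ds dh) (L : Finset (Fin r → ℝ)) (Om : Cfg r → Matrix (Fin dm) (Fin dm) ℝ)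
  (K : Submodule ℂ F) (U : Cfg r → F →L[ℂ] F) (o : Fin n → Cfg ds → F) (T : Setup r (AL.Ek n)) (hD : AL.Dat S φ ψ L Om K U o T),
  ∀ A, IsCompact A → A ⊆ AL.Rg S φ ψ → ∀ a, AL.Sec2 A a →
  (∀ᵐ η ∂(volume : Measure (Cfg r)), AD.ZM (S.int φ ψ hD.sub hD.cen) (a η) ∧
    ∀ᵐ s ∂(volume : Measure (Cfg ds)), a η s ∈ S.F0 φ (S.Dz φ ψ η) (Om η)) →
  ∃ c : Cfg r → AL.Ek n, MemLp c 2 (volume : Measure (Cfg r)) ∧ (∀ η, η ∉ A → c η = 0) ∧
    ∀ᵐ q : Cfg r × Cfg ds ∂(volume.prod volume), a q.1 q.2 = AL.sc U o c q.1 q.2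

/-- **C2** functionals of bundle valued sections over a compact set of regular points (collisions in eight directions allowed) tend to zero if the
functionals of smooth coefficients off `Coll L` do. PROOF. C1: `a = sc U o c` a.e.; the cutoffs `η_m` of `AF.CutStmt`: `a_m = η_m a`, `n2 (a - a_m) = ∫(1-η_m)²‖a‖² → 0` (dominated convergence, `Coll L` null);
`η_mc ∈ LC ((Coll L ∪ {0})ᶜ)` (support in `A ∩ {η_m ≠ 0}` closure, `0 ∉ A`); smooth `b ∈ TOff L` supported in a compact neighbourhood inside `(Coll L ∪ {0})ᶜ` with `∫‖η_mc - b‖²` small (mollification / density of test functions);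
`n2 (a_m - sc U o b) = ∫‖η_mc - b‖²` (`IsoStmt`; a.e. equal sections have difference of norm `0`). `LinStmt`: `ZZ a = ZZ (a - a_m) + ZZ (a_m - sc U o b) + ZZ (sc U o b)`; `UBStmt` for the first two (compact subsets of `Rg`, inside a shell since
`0` is not in them; masses are bounded: `SqM.bd`). -/
def SecZStmt (S : Setup d F) : Prop := FiniteDimensional ℂ F → AN.Cless S → ∀ (dh dm r ds n : ℕ) (φ : Spl dh dm d) (ψ : Spl r ds dh)
  (z₀ : Cfg r), AD.Std2 S φ (spsw ψ) z₀ → ∀ (L : Finset (Fin r → ℝ)) (Om : Cfg r → Matrix (Fin dm) (Fin dm) ℝ)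
  (K : Submodule ℂ F) (U : Cfg r → F →L[ℂ] F) (o : Fin n → Cfg ds → F) (T : Setup r (AL.Ek n)) (hD : AL.Dat S φ ψ L Om K U o T),
  ∀ (R : ℕ → ℝ) (u : ℕ → Cfg d → F), AL.SqM S R u →
  (∀ b : Cfg r → AL.Ek n, AD.TOff L b → Tendsto (fun k => AL.ZZ S.κ φ ψ Om (AL.sc U o b) (R k) (u k)) atTop (𝓝 0)) →
  ∀ A, IsCompact A → A ⊆ AL.Rg S φ ψ → (0 : Cfg r) ∉ A → ∀ a, AL.Sec2 A a →
  (∀ᵐ η ∂(volume : Measure (Cfg r)), AD.ZM (S.int φ ψ hD.sub hD.cen) (a η) ∧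
    ∀ᵐ s ∂(volume : Measure (Cfg ds)), a η s ∈ S.F0 φ (S.Dz φ ψ η) (Om η)) →
  Tendsto (fun k => AL.ZZ S.κ φ ψ Om a (R k) (u k)) atTop (𝓝 0)

def SecZOfStmt (S : Setup d F) : Prop := CoefStmt S → AL.UBStmt S → AL.LinStmt S → AL.IsoStmt S →
  (∀ (e : ℕ) (S' : Setup e F), AL.ZMLStmt S') → (∀ r, AF.CutStmt r) → SecZStmt S

/-- **C3** zero modes and the internal setup in a rotated frame. PROOF. (a) ext on the fields (`Setup`, `CS` structures), the structure constants, `th`, `κ` do not see the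
rotation of the vector index (`AX.rot_f`). (b) `AN.RotStmt T`: `GInv`, `En`, `L2t` are transported by `x ↦ rox Q 1 x` (measure preserving isometry). -/
def ZmRotStmt (F : Type) [NormedAddCommGroup F] [InnerProductSpace ℂ F] : Prop := ∀ (Q : Matrix (Fin 9) (Fin 9) ℝ)
  (hQ : Q * Q.transpose = 1),
  (∀ (d dh dm r ds : ℕ) (S : Setup d F) (h1 : (1 : Matrix (Fin d) (Fin d) ℝ) * (1 : Matrix (Fin d) (Fin d) ℝ).transpose = 1)
    (h2 : (1 : Matrix (Fin ds) (Fin ds) ℝ) * (1 : Matrix (Fin ds) (Fin ds) ℝ).transpose = 1) (φ : Spl dh dm d) (ψ : Spl r ds dh)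
    (hs : S.IsSub φ) (hc : S.IsCen φ ψ) (hs' : (S.rot Q hQ 1 h1).IsSub φ) (hc' : (S.rot Q hQ 1 h1).IsCen φ ψ),
    (S.rot Q hQ 1 h1).int φ ψ hs' hc' = (S.int φ ψ hs hc).rot Q hQ 1 h2) ∧
  ∀ (e : ℕ) (T : Setup e F) (h1 : (1 : Matrix (Fin e) (Fin e) ℝ) * (1 : Matrix (Fin e) (Fin e) ℝ).transpose = 1) (o : Cfg e → F),
    AD.ZM (T.rot Q hQ 1 h1) o → AD.ZM T (fun x => o (rox Q 1 x))

/-- **C4** transfer to the rotated frame. PROOF. `a η s = (sc U' o' b') (rox Q 1 η) (rox Q 1 s)`; `CovZStmt` (for `Qᵀ`, or directly) gives `ZZ κ φ ψ Om' (sc U' o' b') R (rotu Q 1 u) = ZZ κ φ ψ (Om' ∘ rox Q 1) a R u`, and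
`Om' (rox Q 1 η) = Om η` on `Rg` (uniqueness of the positive root, `OmUStmt`; both are `IsOm` for the same `∑D_i²`: `Bun.om`, `AX.DM_rz`, `covF0`), so the functional is `ZZ κ φ ψ Om a R u` (`ZZ` sees `Om` on the support of `a` only).
The support `A'` of `b'` is a compact subset of `(Coll L' ∪ {0})ᶜ`, `A = rox Qᵀ 1 '' A' ⊆ Rg S φ ψ` (`Bun.det`, `Rg` is frame independent), `0 ∉ A`; `Sec2 A a` (`IsoStmt`, `CovZStmt`). `a(η,·)`: `o'_j` are zero modes of the rotated internal setup,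
`U'(rox Q η)` commutes with `θ^h` (`ZMLStmt`), so `a(η,·)` is a zero mode of the unrotated one (C3), with values in `F0(rotated) = F0(η)` (`Bun.U_mem`, `covF0`). Apply C2. -/
def TrfStmt (S : Setup d F) : Prop := FiniteDimensional ℂ F → AN.Cless S → ∀ (Q : Matrix (Fin 9) (Fin 9) ℝ) (hQ : Q * Q.transpose = 1)
  (h1 : (1 : Matrix (Fin d) (Fin d) ℝ) * (1 : Matrix (Fin d) (Fin d) ℝ).transpose = 1) (dh dm r ds n n' : ℕ)
  (φ : Spl dh dm d) (ψ : Spl r ds dh) (z₀ : Cfg r), AD.Std2 S φ (spsw ψ) z₀ →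
  ∀ (L : Finset (Fin r → ℝ)) (Om : Cfg r → Matrix (Fin dm) (Fin dm) ℝ) (K : Submodule ℂ F) (U : Cfg r → F →L[ℂ] F)
  (o : Fin n → Cfg ds → F) (T : Setup r (AL.Ek n)), AL.Dat S φ ψ L Om K U o T →
  ∀ (L' : Finset (Fin r → ℝ)) (Om' : Cfg r → Matrix (Fin dm) (Fin dm) ℝ) (K' : Submodule ℂ F) (U' : Cfg r → F →L[ℂ] F)
  (o' : Fin n' → Cfg ds → F) (T' : Setup r (AL.Ek n')), AL.Dat (S.rot Q hQ 1 h1) φ ψ L' Om' K' U' o' T' →
  ∀ (R : ℕ → ℝ) (u : ℕ → Cfg d → F), AL.SqM S R u →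
  (∀ b : Cfg r → AL.Ek n, AD.TOff L b → Tendsto (fun k => AL.ZZ S.κ φ ψ Om (AL.sc U o b) (R k) (u k)) atTop (𝓝 0)) →
  ∀ b' : Cfg r → AL.Ek n', AL.LC ((Coll L' ∪ {0})ᶜ) b' →
    Tendsto (fun k => AL.ZZ S.κ φ ψ Om' (AL.sc U' o' b') (R k) (rotu Q 1 (u k))) atTop (𝓝 0)

def TrfOfStmt (S : Setup d F) : Prop := AM.CovZStmt F → ZmRotStmt F → SecZStmt S → (∀ S' : Setup d F, AL.IsoStmt S') →
  (∀ (e : ℕ) (S' : Setup e F), AL.ZMLStmt S') → TrfStmt S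

/-- **C5** all slice functionals vanish at all regular points of the stratum. PROOF. `S₁ = S.rot 1 O` (centreless: `Cless` is invariant under colour rotations), `u₁ = rotu 1 O u` (`SqM S₁`: `RotStmt`/`TrStmt`). `RegStmt S₁` gives `Q` with
`Std2 S₂ φ (spsw ψ) (rox Q 1 η)`, `S₂ = S₁.rot Q 1` (`AD.Dz S₁ φ (spsw ψ) = S₁.Dz φ ψ` up to the order of the summands). `DatStmt S₂` (`h.ss` is centreless by `h.less`, so `ICStmt h.ss`), C4 for `S₁`, `SpzStmt S₂` (`rox Q 1 η ≠ 0`) give `SPZ` for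
all small `ε`. `CompStmt S`: `S₂ = S.rot Q O` (rewrite), `rotu Q 1 (rotu 1 O u) = rotu Q O u`, `rox Q O Y = rox Q 1 (rox 1 O Y) = emb φ (AD.cmb (spsw ψ) 0 (rox Q 1 η)) 0`. -/
def SpzOneStmt (S : Setup d F) : Prop := ∀ _ : FiniteDimensional ℂ F, AN.Cless S →
  (∀ (e : ℕ) (T' : Setup e F), AN.Cless T' → AD.ICStmt T') →
  ∀ (h9 : (1 : Matrix (Fin 9) (Fin 9) ℝ) * (1 : Matrix (Fin 9) (Fin 9) ℝ).transpose = 1) (O : Matrix (Fin d) (Fin d) ℝ)
  (hO : O * O.transpose = 1) (dh dm r ds n : ℕ) (φ : Spl dh dm d) (ψ : Spl r ds dh) (z₀ : Cfg r),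
  AD.Std2 (S.rot 1 h9 O hO) φ (spsw ψ) z₀ → ∀ (L : Finset (Fin r → ℝ)) (Om : Cfg r → Matrix (Fin dm) (Fin dm) ℝ)
  (K : Submodule ℂ F) (U : Cfg r → F →L[ℂ] F) (o : Fin n → Cfg ds → F) (T : Setup r (AL.Ek n)),
  AL.Dat (S.rot 1 h9 O hO) φ ψ L Om K U o T → ∀ (R : ℕ → ℝ) (u : ℕ → Cfg d → F), AL.SqM S R u →
  (∀ b : Cfg r → AL.Ek n, AD.TOff L b → Tendsto (fun k => AL.ZZ S.κ φ ψ Om (AL.sc U o b) (R k) (rotu 1 O (u k))) atTop (𝓝 0)) →
  ∀ (Y : Cfg d) (η : Cfg r), η ≠ 0 → η ∈ AL.Rg (S.rot 1 h9 O hO) φ ψ → rox 1 O Y = emb φ (AN.cmb ψ η 0) 0 → SpzAt S Y R u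

def SpzOneOfStmt (S : Setup d F) : Prop := (∀ S' : Setup d F, AL.SpzStmt S' ∧ AL.DatStmt S' ∧ TrfStmt S' ∧ RegStmt S' ∧ CompStmt S' ∧
  AN.RotStmt S' ∧ AD.TrStmt S') → SpzOneStmt S

/-- **C6** null points, centralisers and the potential are invariant under `SU(N)`. PROOF. `act U = ro (adCoeff U) = rox 1 O_U` with `O_U` orthogonal and `f` invariant under `O_U` (as in `Z/U`, `AN/G/Act.lean`), so `V (act U Y) = V Y` and
`cz S (act U Y) = O_U (cz S Y)`. `‖u(act U x)‖ = ‖S(U)u(x)‖ = ‖u(x)‖` (`CoreStmt`, `S(U)` unitary) and `act U` is a measure preserving linear isometry: `mas u (ball (R act U Y) (εR)) = mas u (ball (R Y) (εR))`. -/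
def ActStmt {N : ℕ} (M : BFSS.Model N d F) : Prop := FiniteDimensional ℂ F → ∀ S : Setup d F, U.Rep M S → AN.REP.CoreStmt M →
  ∀ (U : BFSS.SU N) (Y : Cfg d), S.V (M.act U Y) = S.V Y ∧ AD.cd S (M.act U Y) = AD.cd S Y ∧ (M.act U Y = 0 → Y = 0) ∧
    ∀ (R : ℕ → ℝ) (u : ℕ → Cfg d → F), (∀ k, AD.GInv S (u k)) → AD.Nul R u (M.act U Y) → AD.Nul R u Y

/-- all slice functionals at `Y` vanish if the functionals of type `i` do -/
def TypHyp [FiniteDimensional ℂ F] (S : Setup d F) {ι : Type} (P : PW S ι) (i : ι) (Y : Cfg d) : Prop :=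
  ∀ (R : ℕ → ℝ) (u : ℕ → Cfg d → F), AL.SqM S R u →
    (∀ a : P.D i, Tendsto (fun k => ipr (P.Z i (R k) a) (u k)) atTop (𝓝 0)) → SpzAt S Y R u

/-- **C7** no loss. PROOF. `NlStmt` reduces to `Nul` at all `Y ≠ 0` along `R' = max R 1` (`R'_n = R_n` for large `n`, so the functionals tend to zero along `R'`); `NulStmt` with `Y' ` of the hypothesis (`Sq` gives `SqM`); `LocStmt`, `NonCommStmt`, `GeoStmt` for
all rotated setups. -/
def NoLossOfStmt (S : Setup d F) : Prop := ∀ _ : FiniteDimensional ℂ F, AN.Cless S → AT.TWStmt S → AT.BdStmt S → NlStmt S → NulStmt S →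
  AD.ShellStmt S → (∀ S' : Setup d F, AD.TrStmt S' ∧ AD.NonCommStmt S' ∧ AD.LocStmt S' ∧ AD.GeoStmt S') →
  (∀ (e : ℕ) (T' : Setup e F), AN.Cless T' → AD.ICStmt T') → ∀ (ι : Type) (P : PW S ι),
  (∀ Y, Y ≠ 0 → S.V Y = 0 → ∃ Y', Y' ≠ 0 ∧ S.V Y' = 0 ∧ AD.cd S Y' = AD.cd S Y ∧
    (∀ (R : ℕ → ℝ) (u : ℕ → Cfg d → F), (∀ k, AD.GInv S (u k)) → AD.Nul R u Y' → AD.Nul R u Y) ∧ ∃ i, TypHyp S P i Y') →
  P.NoLoss

end Vale.Agent.P353.Z.AJ
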