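import Vale.Agent.P353.AN.JN.Fld
import Vale.Agent.P353.AN.D.StmtL

/-! # P353, all `N`: orthonormal basis of the `K`-valued zero modes of the internal part — statements (architect helper667)

`h : Std2 S φ ψ z₀`, `h.ss` = setup of the semisimple part `s`, `K ≤ F` invariant under all block diagonal fermions. -/

open MeasureTheory Filter Topology Matrix
open scoped ContDiff

namespace Vale.Agent.P353.Z.AJK

variable {d dh dm ds dz n : ℕ} {F : Type*} [NormedAddCommGroup F] [InnerProductSpace ℂ F]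

/-- orthonormal basis of the `K`-valued zero modes of `s` -/
structure KB {S : Setup d F} {φ : Spl dh dm d} {ψ : Spl ds dz dh} {z₀ : Cfg dz} (h : AD.Std2 S φ ψ z₀) (K : Submodule ℂ F)
    {n : ℕ} (o : Fin n → Cfg ds → F) : Prop where
  zm : ∀ j, AD.ZM h.ss (o j)
  val : ∀ j s, o j s ∈ K
  orth : ∀ j k, ∫ s, inner ℂ (o j s) (o k s) = if j = k then 1 else 0
  compl : ∀ u, AD.ZM h.ss u → (∀ᵐ s ∂(volume : Measure (Cfg ds)), u s ∈ K) →
    ∃ c : Fin n → ℂ, ∀ᵐ s ∂(volume : Measure (Cfg ds)), u s = ∑ j, c j • o j s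
  /-- `K`-valued approximants -/
  app : ∀ j, ∃ u : ℕ → Cfg ds → F, (∀ k, AD.GInv h.ss (u k)) ∧ (∀ k s, u k s ∈ K) ∧ L2t u (o j) ∧
    Tendsto (fun k => AD.En h.ss (u k)) atTop (𝓝 0)

/-- **K1** operators on `F` that commute (or anticommute) with the fermions of `s` act on zero modes. PROOF: `h.ss.th α A = S.th α (φ (inl (ψ (inl A))))`;
`Q^s_β(Tu) = ±T Q^s_βu` (`Setup.Q`, `vec` is linear in `th`, `pd` commutes with `T`), `G^s_C(Tu) = T G^s_Cu` (`cS` is quadratic in `th`), so `T` maps `GInv` to `GInv`,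
`En(Tu) ≤ ‖T‖²En(u)`, and `L2t` is preserved. -/
def ActStmt (F : Type*) [NormedAddCommGroup F] [InnerProductSpace ℂ F] : Prop := FiniteDimensional ℂ F →
  ∀ (ds : ℕ) (T : F →L[ℂ] F) (S : Setup ds F),
  ((∀ α A, T * S.th α A = S.th α A * T) ∨ (∀ α A, T * S.th α A = -(S.th α A * T))) →
  (∀ u, AD.GInv S u → AD.GInv S (fun s => T (u s)) ∧ AD.En S (fun s => T (u s)) ≤ ‖T‖ ^ 2 * AD.En S u) ∧
  (∀ (u : ℕ → Cfg ds → F) (v : Cfg ds → F), L2t u v → L2t (fun k s => T (u k s)) (fun s => T (v s))) ∧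
  ∀ o, AD.ZM S o → AD.ZM S (fun s => T (o s))

/-- **K2** zero modes are spanned by the family of `ICStmt`. PROOF: for approximants `u_n → u`: `mas(u_n - ∑⟨o_j,u_n⟩o_j)(ball ρ) ≤ Cρ²En(u_n) → 0`, so
`u = ∑⟨o_j,u⟩o_j` a.e. on every ball. Also: linear combinations of zero modes are zero modes; `ZM` is invariant under a.e. equality (with
measurability from `L2t`). -/
def SpanStmt (F : Type*) [NormedAddCommGroup F] [InnerProductSpace ℂ F] : Prop := FiniteDimensional ℂ F →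
  ∀ (ds : ℕ) (S : Setup ds F),
  (∀ (n : ℕ) (o : Fin n → Cfg ds → F) (c : Fin n → ℂ), (∀ j, AD.ZM S (o j)) → AD.ZM S (fun s => ∑ j, c j • o j s)) ∧
  (∀ u v : Cfg ds → F, AD.ZM S u → u =ᵐ[volume] v → MemLp v 2 (volume : Measure (Cfg ds)) → AD.ZM S v) ∧
  (AD.ICStmt S → ∃ (n : ℕ) (o : Fin n → Cfg ds → F), (∀ j, AD.ZM S (o j)) ∧
    (∀ j k, ∫ x, inner ℂ (o j x) (o k x) = if j = k then 1 else 0) ∧
    ∀ u, AD.ZM S u → ∃ c : Fin n → ℂ, ∀ᵐ s ∂(volume : Measure (Cfg ds)), u s = ∑ j, c j • o j s)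

/-- **K3** existence of the basis. PROOF. `P` = orthogonal projection of `F` onto `K` commutes with `θ^h` (`K` and `K^⊥` are invariant since `θ` is
self-adjoint), so it maps zero modes to zero modes (K1). By K2 the `K`-valued zero modes form a finite dimensional subspace `W` of `L²` (classes of
`∑c_jPo_j`); take an orthonormal basis of `W` with representatives `P(∑c_jo_j)`, values in `K` everywhere. Approximants: `P u_k`. -/
def KBStmt (S : Setup d F) : Prop := FiniteDimensional ℂ F → ∀ (dh dm ds dz : ℕ) (φ : Spl dh dm d) (ψ : Spl ds dz dh)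
  (z₀ : Cfg dz) (h : AD.Std2 S φ ψ z₀) (K : Submodule ℂ F), (∀ α (A : Fin dh), ∀ v ∈ K, S.th α (φ (Sum.inl A)) v ∈ K) →
  AD.ICStmt h.ss → ∃ (n : ℕ) (o : Fin n → Cfg ds → F), KB h K o

def KBOfStmt (S : Setup d F) : Prop := ActStmt F → SpanStmt F → KBStmt S

/-- **K4** the centre fermions act on the span. PROOF: `T = S.th α (φ (inl (ψ (inr a))))` anticommutes with the fermions of `s` (different colour
index), so it maps zero modes to zero modes (K1), and `K`-valued ones to `K`-valued ones; `compl`. -/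
def ZFamStmt (S : Setup d F) : Prop := ActStmt F → FiniteDimensional ℂ F → ∀ (dh dm ds dz : ℕ) (φ : Spl dh dm d)
  (ψ : Spl ds dz dh) (z₀ : Cfg dz) (h : AD.Std2 S φ ψ z₀) (K : Submodule ℂ F),
  (∀ α (A : Fin dh), ∀ v ∈ K, S.th α (φ (Sum.inl A)) v ∈ K) → ∀ (n : ℕ) (o : Fin n → Cfg ds → F), KB h K o →
  ZFam S (fun a : Fin dz => φ (Sum.inl (ψ (Sum.inr a)))) o

end Vale.Agent.P353.Z.AJK
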