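import Vale.Agent.P353.AN.JN.PWf
import Vale.Agent.P353.AN.JN.Om

/-! # P353, all `N`: existence of the data of a cluster type -/

open MeasureTheory Filter Topology
open scoped ContDiff

namespace Vale.Agent.P353.Z.AJK

universe u

variable {d dh dm r ds : ℕ} {F : Type u} [NormedAddCommGroup F] [InnerProductSpace ℂ F]

/-- data over a standard position (`S` = setup in the frame of the type) -/
def TyE (S : Setup d F) (φ : Spl dh dm d) (ψ : Spl r ds dh) : Prop :=
  ∃ (L : Finset (Fin r → ℝ)) (Om : Cfg r → Matrix (Fin dm) (Fin dm) ℝ) (K : Submodule ℂ F) (U : Cfg r → F →L[ℂ] F) (n : ℕ)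
    (o : Fin n → Cfg ds → F) (T : Setup r (AL.Ek n)) (Ω : AL.Ek n), AL.Dat S φ ψ L Om K U o T ∧ ‖Ω‖ = 1 ∧
    (∀ A α, T.amF A α Ω = 0) ∧ ∀ w : AL.Ek n, (∀ A α, T.amF A α w = 0) → ∃ c : ℂ, w = c • Ω

theorem tyE (S : Setup d F) (hfin : FiniteDimensional ℂ F) (φ : Spl dh dm d) (ψ : Spl r ds dh) (z₀ : Cfg r)
    (h : AD.Std2 S φ (spsw ψ) z₀) (hDat : AL.DatStmt S) (hIC : AD.ICStmt h.ss) (hX2 : AX2.X2Stmt.{u}) (hirr : S.Irr)
    (hne : ∃ v : F, v ≠ 0) (hZms : AX2.ZmsStmt h.ss) (hOne : OneA.{u} S.κ h.ss.f) : TyE S φ ψ := by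
  obtain ⟨L, Om, K, U, n, o, T, hd⟩ := hDat hfin dh dm r ds φ ψ z₀ h hIC
  obtain ⟨hZ, ho⟩ := hX2 d dh dm ds r F hfin S φ (spsw ψ) z₀ h hirr hne L Om K U hd.bun hOne
  obtain ⟨Ω, h1, h2, h3⟩ := omega hd h hZms hZ ho
  exact ⟨L, Om, K, U, n, o, T, Ω, hd, h1, h2, h3⟩

/-- a cluster type from a frame -/
noncomputable def mkTy (S : Setup d F) (O : Matrix (Fin d) (Fin d) ℝ) (hO : O * O.transpose = 1) (φ : Spl dh dm d)
    (ψ : Spl r ds dh) (z₀ : Cfg r) (std : AD.Std2 (S.rot 1 h91 O hO) φ (spsw ψ) z₀) (pos : 0 < dm)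
    (h : TyE (S.rot 1 h91 O hO) φ ψ) : Ty S where
  O := O
  hO := hO
  dh := dh
  dm := dm
  r := r
  ds := ds
  n := h.choose_spec.choose_spec.choose_spec.choose_spec.choose
  φ := φ
  ψ := ψ
  z₀ := z₀
  std := std
  pos := pos
  L := h.choose
  Om := h.choose_spec.choose
  K := h.choose_spec.choose_spec.choose
  U := h.choose_spec.choose_spec.choose_spec.choose
  o := h.choose_spec.choose_spec.choose_spec.choose_spec.choose_spec.choose
  T := h.choose_spec.choose_spec.choose_spec.choose_spec.choose_spec.choose_spec.choose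
  dat := h.choose_spec.choose_spec.choose_spec.choose_spec.choose_spec.choose_spec.choose_spec.choose_spec.1
  Ω := h.choose_spec.choose_spec.choose_spec.choose_spec.choose_spec.choose_spec.choose_spec.choose
  Ω_norm := h.choose_spec.choose_spec.choose_spec.choose_spec.choose_spec.choose_spec.choose_spec.choose_spec.2.1
  Ω_am := h.choose_spec.choose_spec.choose_spec.choose_spec.choose_spec.choose_spec.choose_spec.choose_spec.2.2.1
  Ω_one := h.choose_spec.choose_spec.choose_spec.choose_spec.choose_spec.choose_spec.choose_spec.choose_spec.2.2.2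

end Vale.Agent.P353.Z.AJK
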